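-- RD-BASE cccbd0352f60c87fc4238ed83a2143afb5e0872b
import Vale.Agent.P028.MathlibUsed
import Vale.Agent.P028.RD.H74.Trunc
import Vale.Agent.P028.RD.H232.Fill
import Vale.Agent.P028.RD.H758.RowRough
import Vale.Agent.P028.RD.H758.XTree
attribute [-instance] ProperSMul.toContinuousSMul IsTopologicalTorsor.toContinuousSMul IdemSemiring.toCanonicallyOrderedAdd IdemSemiring.toMulLeftMono IdemSemiring.toMulRightMono AddQuantale.instAddLeftMono AddQuantale.instAddRightMono Quantale.instMulLeftMono Quantale.instMulRightMono FiniteDimensional.rclike_to_real IsScalarTower.complexToReal FiniteDimensional.complexToReal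

/-!
# The words above a number `x`

`wrd g x q` is a number with the labels of `q` above `x` and canonical labels (a function of the
cell of `q` at `x`) at the primes `≤ x`.
-/

namespace Vale.P028.SK

open Finset CF RN

variable {g : Cfg}

/-- the exponents at a split prime of a cell -/
theorem fac_of_Spl {x a b p : ℕ} (h : a ∈ NT.cell g.V (f g) (thr g) (N g) x b) (hp : x < p)
    (hpN : p ≤ N g) (hs : Spl g b p) : a.factorization p = b.factorization p := by
  have h2 : a ∈ NT.cell g.V (f g) (thr g) (N g) (p - 1) b := NT.cell_mono (by omega) b h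
  rw [NT.cell_split hs.1.pos hpN hs, mem_filter] at h2
  exact h2.2

theorem Spl_of_cell {x a b p : ℕ} (h : a ∈ NT.cell g.V (f g) (thr g) (N g) x b) (hp : x ≤ p) :
    Spl g a p ↔ Spl g b p := by
  unfold Spl
  rw [NT.cell_eq (NT.cell_mono hp b h)]

/-- cells below a common cell: only the split primes matter -/
theorem cell_down_spl {q r : ℕ} {m n : ℕ} (hr : r ∈ g.V)
    (h : r ∈ NT.cell g.V (f g) (thr g) (N g) n q)
    (he : ∀ p : ℕ, m < p → p ≤ n → p ≤ N g → r ∈ NT.cell g.V (f g) (thr g) (N g) p q →
      Spl g q p → r.factorization p = q.factorization p) (hmn : m ≤ n) :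
    r ∈ NT.cell g.V (f g) (thr g) (N g) m q := by
  by_cases hN : N g ≤ m
  · rw [NT.cell_top hN]
    exact hr
  · have h0 : r ∈ NT.cell g.V (f g) (thr g) (N g) (min n (N g)) q := by
      rcases le_total n (N g) with h1 | h1
      · rw [min_eq_left h1]; exact h
      · rw [min_eq_right h1, NT.cell_top le_rfl]; exact hr
    have key : ∀ d : ℕ, d ≤ min n (N g) - m →
        r ∈ NT.cell g.V (f g) (thr g) (N g) (min n (N g) - d) q := by
      intro d
      induction d with
      | zero => intro _; exact h0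
      | succ d ih =>
        intro hd
        have h2 := ih (by omega)
        set p := min n (N g) - d with hp
        have hp0 : 0 < p := by omega
        have hpN : p ≤ N g := (Nat.sub_le _ _).trans (min_le_right _ _)
        have hpn : p ≤ n := (Nat.sub_le _ _).trans (min_le_left _ _)
        have e1 : min n (N g) - (d + 1) = p - 1 := by omega
        rw [e1]
        by_cases hs : NT.Split (f g) (thr g) (NT.cell g.V (f g) (thr g) (N g) p q) p
        · rw [NT.cell_split hp0 hpN hs, mem_filter]
          exact ⟨h2, he p (by omega) hpn hpN h2 hs⟩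
        · rw [NT.cell_nosplit hp0 hpN hs]
          exact h2
    have h3 := key (min n (N g) - m) le_rfl
    have e2 : min n (N g) - (min n (N g) - m) = m := by
      have : m ≤ min n (N g) := le_min hmn (by omega)
      omega
    rwa [e2] at h3

open Classical in
/-- the canonical element of a cell -/
noncomputable def repc (B : Finset ℕ) : ℕ := if h : B.Nonempty then B.min' h else 1

/-- the canonical element of the cell of `q` at `x` -/
noncomputable def rep (g : Cfg) (x q : ℕ) : ℕ := repc (NT.cell g.V (f g) (thr g) (N g) x q)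

/-- **the word of `q` above `x`**: the exponents of `q` at the primes `> x`, canonical exponents at
the primes `≤ x` -/
noncomputable def wrd (g : Cfg) (x q : ℕ) : ℕ := rgh x q * prt (fun p => p ≤ x) (rep g x q)

theorem rep_mem {x q : ℕ} (hq : q ∈ g.V) : rep g x q ∈ NT.cell g.V (f g) (thr g) (N g) x q := by
  have h : (NT.cell g.V (f g) (thr g) (N g) x q).Nonempty := ⟨q, NT.mem_cell_self hq⟩
  unfold rep repc
  rw [dif_pos h]
  exact min'_mem _ _

theorem rep_mem_V {x q : ℕ} (hq : q ∈ g.V) : rep g x q ∈ g.V := NT.cell_subset _ _ (rep_mem hq)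

theorem wrd_pos (x q : ℕ) : 0 < wrd g x q := Nat.mul_pos (rgh_pos _ _) (prt_pos _ _)

theorem wrd_fac (x q p : ℕ) : (wrd g x q).factorization p =
    if x < p then q.factorization p else (rep g x q).factorization p := by
  classical
  unfold wrd
  rw [Nat.factorization_mul (rgh_pos _ _).ne' (prt_pos _ _).ne', Finsupp.add_apply, rgh_fac,
    prt_fac]
  by_cases h : x < p
  · rw [if_pos h, if_pos h, if_neg (by omega), add_zero]
  · rw [if_neg h, if_neg h, if_pos (by omega), zero_add]

/-- the labels above `x` -/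
theorem wrd_agL (x q : ℕ) : AgL g x (wrd g x q) q := by
  intro p _ h1 _
  rw [wrd_fac, if_pos h1]

/-- all the cells of the word are those of the canonical element -/
theorem wrd_agS {x q : ℕ} (hq : q ∈ g.V) : AgS g 0 (wrd g x q) (rep g x q) := by
  intro p _ hpN hs
  rw [wrd_fac]
  split_ifs with h
  · have h1 := rep_mem (g := g) (x := x) hq
    exact (fac_of_Spl h1 h hpN ((Spl_of_cell h1 h.le).1 hs)).symm
  · rfl

theorem Qc_congr_agS {a b : ℕ} (h : AgS g 0 a b) : Qc g a = Qc g b := by
  unfold Qc xc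
  exact prod_congr rfl fun p hp => by rw [h.kc (mem_PO.1 hp).1.pos]

/-- **the word is a number with bounded centre** -/
theorem wrd_Gd {x q : ℕ} (hq : q ∈ g.V) :
    0 < wrd g x q ∧ ∀ p, (Qc g (wrd g x q)).factorization p ≤ Eb g := by
  refine ⟨wrd_pos x q, fun p => ?_⟩
  rw [Qc_congr_agS (wrd_agS hq)]
  exact Qc_exp (rep_mem_V hq) p

theorem wrd_cell {x q m : ℕ} (hm : x ≤ m) : NT.cell g.V (f g) (thr g) (N g) m (wrd g x q) =
    NT.cell g.V (f g) (thr g) (N g) m q := (wrd_agL x q).agS.cell hm

theorem wrd_kc {x q p : ℕ} (hp : x < p) : kc g (wrd g x q) p = kc g q p :=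
  (wrd_agL x q).agS.kc hp

theorem wrd_Spl {x q p : ℕ} (hp : x ≤ p) : Spl g (wrd g x q) p ↔ Spl g q p :=
  (wrd_agL x q).agS.Spl hp

theorem wrd_hn {x q j : ℕ} (hj : j < N g - x) : hn g (wrd g x q) j = hn g q j :=
  (wrd_agL x q).agS.hn hj

theorem wrd_muw {x q j : ℕ} {c1 : ℝ} (hj : j < N g - x) :
    muw g c1 (wrd g x q) j = muw g c1 q j := (wrd_agL x q).agS.muw hj

theorem Md_fac_congr {x a b : ℕ} (h : AgL g x a b) {p : ℕ} (hp : x < p) :
    (Md g a).factorization p = (Md g b).factorization p := by
  rw [Md_fac, Md_fac]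
  by_cases h1 : p ∈ PO (zs g) (N g)
  · have h2 := mem_PO.1 h1
    rw [if_pos h1, if_pos h1, h.agS.kc hp, h p h2.1 hp h2.2.2]
  · rw [if_neg h1, if_neg h1]

theorem uw_congr {x a b : ℕ} (h : AgL g x a b) {j : ℕ} (hj : j < N g - x) :
    uw g a j = uw g b j := by
  have e : (Md g a).factorization (N g - j) = (Md g b).factorization (N g - j) :=
    Md_fac_congr h (by omega)
  unfold uw
  congr 1
  rw [eq_iff_iff]
  have e2 : ∀ h : j < N g, wo g a ⟨j, h⟩ = wo g b ⟨j, h⟩ := by
    intro h
    refine Fin.ext ?_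
    unfold wo wd
    simp only
    rw [e]
  constructor
  · rintro ⟨h, h'⟩
    exact ⟨h, by rwa [e2 h] at h'⟩
  · rintro ⟨h, h'⟩
    exact ⟨h, by rwa [e2 h]⟩

theorem wrd_uw {x q j : ℕ} (hj : j < N g - x) : uw g (wrd g x q) j = uw g q j :=
  uw_congr (wrd_agL x q) hj

theorem M_congr_agL {x i a b : ℕ} (h : AgL g x a b) (hx : x ≤ z g i) : M g i a = M g i b := by
  refine Nat.eq_of_factorization_eq (M_pos g i a).ne' (M_pos g i b).ne' fun p => ?_
  have key : ∀ c : ℕ, (M g i c).factorization p =
      if p ∈ PO (z g i) (N g) then kc g c p - c.factorization p else 0 := fun c =>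
    od_fac _ _ _ _ _
  rw [key, key]
  by_cases h1 : p ∈ PO (z g i) (N g)
  · have h2 := mem_PO.1 h1
    have h3 : x < p := by omega
    rw [if_pos h1, if_pos h1, h.agS.kc h3, h p h2.1 h3 h2.2.2]
  · rw [if_neg h1, if_neg h1]

theorem wrd_M {x q i : ℕ} (hx : x ≤ z g i) : M g i (wrd g x q) = M g i q :=
  M_congr_agL (wrd_agL x q) hx

theorem Wt_congr_agL {x i a b : ℕ} (h : AgL g x a b) (hx : x ≤ z g i) : Wt g i a = Wt g i b := by
  have e : xc (PO (z g i) (N g)) (kc g a) = xc (PO (z g i) (N g)) (kc g b) := by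
    unfold xc
    refine prod_congr rfl fun p hp => ?_
    have h2 := mem_PO.1 hp
    rw [h.agS.kc (by omega)]
  unfold Wt
  rw [e, M_congr_agL h hx]

theorem wrd_Wt {x q i : ℕ} (hx : x ≤ z g i) : Wt g i (wrd g x q) = Wt g i q :=
  Wt_congr_agL (wrd_agL x q) hx

/-- the word depends on the rough part only -/
theorem wrd_congr {x q r : ℕ} (h : rgh x q = rgh x r) : wrd g x q = wrd g x r := by
  have h1 : AgL g x q r := by
    intro p hp h1 _
    have h2 : (rgh x q).factorization p = (rgh x r).factorization p := by rw [h]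
    rw [rgh_fac, rgh_fac, if_pos h1, if_pos h1] at h2
    exact h2
  unfold wrd rep
  rw [h, h1.agS.cell le_rfl]

theorem rgh_wrd (x q : ℕ) : rgh x (wrd g x q) = rgh x q :=
  rgh_congr fun p _ hp => by rw [wrd_fac, if_pos hp]

theorem wrd_inj {x q r : ℕ} (h : wrd g x q = wrd g x r) : rgh x q = rgh x r := by
  rw [← rgh_wrd (g := g) x q, ← rgh_wrd (g := g) x r, h]

/-- the canonical element depends on the cell only -/
theorem rep_congr {x q r : ℕ} (h : r ∈ NT.cell g.V (f g) (thr g) (N g) x q) :
    rep g x r = rep g x q := by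
  unfold rep
  rw [NT.cell_eq h]

end Vale.P028.SK
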