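-- RD-BASE d2f64721007d38f34b4f7ca7a72163e70bb2a1d2
import Vale.Agent.P028.MathlibUsed
import Vale.Agent.P028.RD.R19.GainAl
import Vale.Agent.P028.RD.H530.Base
attribute [-instance] ProperSMul.toContinuousSMul IsTopologicalTorsor.toContinuousSMul IdemSemiring.toCanonicallyOrderedAdd IdemSemiring.toMulLeftMono IdemSemiring.toMulRightMono AddQuantale.instAddLeftMono AddQuantale.instAddRightMono Quantale.instMulLeftMono Quantale.instMulRightMono FiniteDimensional.rclike_to_real IsScalarTower.complexToReal FiniteDimensional.complexToReal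

/-!
# The agreement at the stages where a triple is not aligned

Version of `agr_bound'` for the stages inside the place where the pair is clean: there the deficits
of `q` and `r` need not divide the cofactors.
-/

namespace Vale.P028.SK

open Finset CF

theorem num_dvd_num_mul (R : ℚ) (μ : ℕ) : R.num ∣ ((μ : ℚ) * R).num := by
  have h1 : ((μ : ℚ) * R).num * R.den = (μ : ℤ) * R.num * ((μ : ℚ) * R).den := by
    have e1 : ((μ : ℚ) * R) = (((μ : ℚ) * R).num : ℚ) / ((μ : ℚ) * R).den := (Rat.num_div_den _).symm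
    have e2 : R = (R.num : ℚ) / R.den := (Rat.num_div_den R).symm
    have d1 : (((μ : ℚ) * R).den : ℚ) ≠ 0 := by exact_mod_cast ((μ : ℚ) * R).den_nz
    have d2 : (R.den : ℚ) ≠ 0 := by exact_mod_cast R.den_nz
    have h : ((((μ : ℚ) * R).num * R.den : ℤ) : ℚ) = (((μ : ℤ) * R.num * ((μ : ℚ) * R).den : ℤ) : ℚ) := by
      push_cast
      have h3 : (((μ : ℚ) * R).num : ℚ) = ((μ : ℚ) * R) * ((μ : ℚ) * R).den := by
        rw [eq_comm]; exact Rat.mul_den_eq_num _
      have h4 : (R.num : ℚ) = R * R.den := (Rat.mul_den_eq_num R).symm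
      rw [h3]
      conv_rhs => rw [h4]
      ring
    exact_mod_cast h
  have h2 : IsCoprime R.num (R.den : ℤ) := Rat.isCoprime_num_den R
  refine h2.dvd_of_dvd_mul_right ?_
  rw [h1]
  exact ((dvd_mul_left _ _).mul_right _)

theorem num_le_num_mul {R : ℚ} {μ : ℕ} (hμ : 0 < μ) :
    |(R.num : ℝ)| ≤ |(((μ : ℚ) * R).num : ℝ)| := by
  by_cases h : R = 0
  · rw [h]; simp
  · have h1 : ((μ : ℚ) * R).num ≠ 0 := by
      rw [Rat.num_ne_zero]
      exact mul_ne_zero (by exact_mod_cast hμ.ne') h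
    have h2 := Int.le_of_dvd (abs_pos.2 h1) ((abs_dvd_abs _ _).2 (num_dvd_num_mul R μ))
    exact_mod_cast h2

/-- `tail_pair2` with multipliers `μ` -/
theorem tail_pair3 {γ α β : ℝ} {q r : ℕ} (hq : 0 < q) (hα : 0 < α) (_hβ : 0 < β)
    {c c' : ℕ → ℤ} {n : ℤ}
    (hnear : |(n : ℝ) + γ * ((cofac r q : ℝ) - cofac q r)| < 2 * DD q r α β)
    {Y : ℝ} (hY : 1 ≤ Y)
    (m : ℕ) (st : ℕ → ℕ) (F G : ℕ → ℚ) (K K' : ℕ → ℝ)
    (hK1 : ∀ i < m, 1 ≤ K i) (hK1' : ∀ i < m, 1 ≤ K' i)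
    (hK : ∀ i, i + 1 < m → K (i + 1) ≤ K i) (hK' : ∀ i, i + 1 < m → K' (i + 1) ≤ K' i)
    (hch : ∀ i, i + 1 < m → F (i + 1) ≠ F i → Real.exp 1 ≤ K i ∧ K (i + 1) ^ 2 ≤ K i)
    (hch' : ∀ i, i + 1 < m → G (i + 1) ≠ G i → Real.exp 1 ≤ K' i ∧ K' (i + 1) ^ 2 ≤ K' i)
    (hF : ∀ i < m, |γ - F i| ≤ K i * α) (hG : ∀ i < m, |γ - G i| ≤ K' i * β)
    (hden : ∀ i < m, ∃ B B' μ : ℕ, 0 < B ∧ 0 < B' ∧ 0 < μ ∧ (B : ℝ) ≤ K i ∧ (B' : ℝ) ≤ K' i ∧
      (μ : ℝ) * DD q r α β ≤ Y ∧
      ((μ : ℚ) * ((n : ℚ) + F i * (cofac r q : ℤ) - G i * (cofac q r : ℤ))).den ∣ B * B')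
    (P : Finset ℕ)
    (hP : ∀ p ∈ P, (p : ℤ) ∣ n - (c p * (cofac r q : ℤ) - c' p * (cofac q r : ℤ)) ∧
      p.Prime ∧ st p < m ∧ ¬ p ∣ (F (st p)).den ∧
      ¬ p ∣ (G (st p)).den ∧ (p : ℤ) ∣ c p * (F (st p)).den + (F (st p)).num ∧
      (p : ℤ) ∣ c' p * (G (st p)).den + (G (st p)).num ∧
      Real.log (K (st p)) ^ (3 / 2 : ℝ) < (p : ℝ) ∧ Real.log (K' (st p)) ^ (3 / 2 : ℝ) < (p : ℝ) ∧
      Y < (p : ℝ) ∧
      (n : ℚ) + F (st p) * (cofac r q : ℤ) - G (st p) * (cofac q r : ℤ) ≠ 0) :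
    (pr P)⁻¹ ≤ Real.exp 352 := by
  set u := cofac q r with hu
  set v := cofac r q with hv
  set D := DD q r α β with hD
  set R : ℕ → ℚ := fun i => (n : ℚ) + F i * (v : ℤ) - G i * (u : ℤ) with hRdef
  have hvD : (v : ℝ) * α ≤ D := by
    rw [hD, DD_eq q r hq α β]
    have e1 : (v : ℝ) = ((r / Nat.gcd q r : ℕ) : ℝ) := by
      rw [hv]; unfold cofac; rw [Nat.gcd_comm]
    rw [e1]
    exact le_max_left _ _
  have huD : (u : ℝ) * β ≤ D := by
    rw [hD, DD_eq q r hq α β]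
    exact le_max_right _ _
  have hD0 : 0 ≤ D := by
    have : 0 ≤ (v : ℝ) * α := by positivity
    linarith
  have key := FQ6.tail_le (C₀ := 2) (by norm_num) m R (fun i => Real.log (K i))
    (fun i => Real.log (K' i)) Y P hY ?_ ?_ ?_ ?_ ?_
  · refine key.trans (le_of_eq ?_)
    norm_num
  · intro i hi
    exact Real.log_le_log (by linarith [hK1 (i + 1) hi]) (hK i hi)
  · intro i hi
    exact Real.log_le_log (by linarith [hK1' (i + 1) hi]) (hK' i hi)
  · intro i hi hne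
    have hFG : F (i + 1) ≠ F i ∨ G (i + 1) ≠ G i := by
      by_contra hcon
      push Not at hcon
      apply hne
      simp only [hRdef, hcon.1, hcon.2]
    rcases hFG with h | h
    · left
      obtain ⟨h1, h2⟩ := hch i hi h
      have h3 : 0 < K (i + 1) := by linarith [hK1 (i + 1) hi]
      constructor
      · rw [← Real.log_exp 1]
        exact Real.log_le_log (Real.exp_pos _) h1
      · have h4 := Real.log_le_log (by positivity) h2
        rw [Real.log_pow] at h4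
        push_cast at h4
        linarith
    · right
      obtain ⟨h1, h2⟩ := hch' i hi h
      have h3 : 0 < K' (i + 1) := by linarith [hK1' (i + 1) hi]
      constructor
      · rw [← Real.log_exp 1]
        exact Real.log_le_log (Real.exp_pos _) h1
      · have h4 := Real.log_le_log (by positivity) h2
        rw [Real.log_pow] at h4
        push_cast at h4
        linarith
  · intro i hi
    obtain ⟨B, B', μ, hB0, hB0', hμ, hB, hB', hμY, hdvd⟩ := hden i hi
    have hKi := hK1 i hi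
    have hKi' := hK1' i hi
    have hRabs : |((R i : ℚ) : ℝ)| ≤ (2 + K i + K' i) * D := by
      have e : ((R i : ℚ) : ℝ) = ((n : ℝ) + γ * ((v : ℝ) - u)) + -(γ - F i) * v +
          (γ - G i) * u := by
        simp only [hRdef]
        push_cast
        ring
      rw [e]
      have a1 : |(-(γ - F i) * v : ℝ)| ≤ K i * D := by
        rw [abs_mul, abs_neg, abs_of_nonneg (show (0 : ℝ) ≤ v by positivity)]
        calc |γ - F i| * v ≤ K i * α * v := mul_le_mul_of_nonneg_right (hF i hi) (by positivity)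
          _ = K i * (v * α) := by ring
          _ ≤ _ := mul_le_mul_of_nonneg_left hvD (by linarith)
      have a2 : |((γ - G i) * u : ℝ)| ≤ K' i * D := by
        rw [abs_mul, abs_of_nonneg (show (0 : ℝ) ≤ u by positivity)]
        calc |γ - G i| * u ≤ K' i * β * u := mul_le_mul_of_nonneg_right (hG i hi) (by positivity)
          _ = K' i * (u * β) := by ring
          _ ≤ _ := mul_le_mul_of_nonneg_left huD (by linarith)
      have a3 := abs_add_three ((n : ℝ) + γ * ((v : ℝ) - u)) (-(γ - F i) * v) ((γ - G i) * u)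
      nlinarith
    have hμ0 : (0 : ℝ) < μ := by exact_mod_cast hμ
    have hRabs' : |((((μ : ℚ) * R i) : ℚ) : ℝ)| ≤ (2 + K i + K' i) * Y := by
      push_cast
      rw [abs_mul, abs_of_pos hμ0]
      calc (μ : ℝ) * |((R i : ℚ) : ℝ)| ≤ μ * ((2 + K i + K' i) * D) :=
            mul_le_mul_of_nonneg_left hRabs hμ0.le
        _ = (2 + K i + K' i) * (μ * D) := by ring
        _ ≤ _ := mul_le_mul_of_nonneg_left hμY (by linarith)
    have h1 := FQ6.num_abs_le (R := (μ : ℚ) * R i) hdvd hB0 hB0' hRabs'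
    have hB0R : (0 : ℝ) < B := by exact_mod_cast hB0
    have hB0R' : (0 : ℝ) < B' := by exact_mod_cast hB0'
    have h2 : (B : ℝ) * B' ≤ K i * K' i := mul_le_mul hB hB' hB0R'.le (by linarith)
    have h3 : (2 + K i + K' i) ≤ 4 * (K i * K' i) := by nlinarith
    have h4 : Real.exp (2 * (1 + Real.log (K i) + Real.log (K' i))) =
        Real.exp 2 * (K i * K' i) ^ 2 := by
      have : 2 * (1 + Real.log (K i) + Real.log (K' i)) =
          2 + 2 * (Real.log (K i) + Real.log (K' i)) := by ring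
      rw [this, Real.exp_add, ← Real.log_mul (by linarith) (by linarith)]
      congr 1
      rw [mul_comm, Real.exp_mul, Real.exp_log (by positivity)]
      norm_num
    have h5 : (4 : ℝ) ≤ Real.exp 2 := by
      have h6 := Real.add_one_le_exp (1 : ℝ)
      have h7 : Real.exp 2 = Real.exp 1 * Real.exp 1 := by
        rw [← Real.exp_add]; norm_num
      rw [h7]
      nlinarith
    calc |((R i).num : ℝ)| ≤ |(((μ : ℚ) * R i).num : ℝ)| := num_le_num_mul hμ
      _ ≤ B * B' * ((2 + K i + K' i) * Y) := h1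
      _ ≤ (K i * K' i) * ((4 * (K i * K' i)) * Y) := by
          refine mul_le_mul h2 ?_ (by positivity) (by positivity)
          exact mul_le_mul_of_nonneg_right h3 (by linarith)
      _ = 4 * (K i * K' i) ^ 2 * Y := by ring
      _ ≤ Real.exp 2 * (K i * K' i) ^ 2 * Y := by gcongr
      _ = Real.exp (2 * (1 + Real.log (K i) + Real.log (K' i))) * Y := by rw [h4]
  · intro p hp
    obtain ⟨hagree, hpp, hst, h2, h3, h4, h5, h6, h7, h8, h9⟩ := hP p hp
    refine ⟨hpp, h8, st p, hst, h9, ?_, h6, h7,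
      Real.log_nonneg (hK1 _ hst), Real.log_nonneg (hK1' _ hst)⟩
    exact (FQ6.agree_iff_num hpp h2 h3 h4 h5 n u v).1 hagree

variable {g : Cfg}

/-- **Agreement at the stages where the triple is not aligned**, general form: `μ` clears the
common deficits, `Y` bounds the level after this. -/
theorem agr_deep (hρ : Real.exp 1 ≤ g.K.P.ρ0 ^ (-g.K.P.c0)) {q r : ℕ} (hq : 0 < q)
    {n : ℤ}
    (hn : |(n : ℝ) + g.γ * ((cofac r q : ℝ) - cofac q r)| < 2 * Dl g q r)
    {Y : ℝ} (hY : 1 ≤ Y)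
    (P : Finset ℕ) (hNA : ∀ p ∈ P, ¬ Al g (sg g p) q r n)
    (hM : ∀ p ∈ P, ∀ i, i ≤ sg g p → ∃ μ : ℕ, 0 < μ ∧ M g i q ∣ μ * cofac r q ∧
      M g i r ∣ μ * cofac q r ∧ (μ : ℝ) * Dl g q r ≤ Y)
    (hP : ∀ p ∈ P, p ∈ Pm g q ∧ p ∈ Pm g r ∧ Y < p ∧
      (p : ℤ) ∣ n - (c g q p * (cofac r q : ℤ) - c g r p * (cofac q r : ℤ))) :
    (pr P)⁻¹ ≤ Real.exp 352 := by
  classical
  rcases P.eq_empty_or_nonempty with h0 | h0
  · rw [h0, pr, prod_empty, inv_one]
    exact Real.one_le_exp (by norm_num)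
  have hne : (P.image (sg g)).Nonempty := h0.image _
  set i0 := (P.image (sg g)).min' hne with hi0
  have hi0mem : i0 ∈ P.image (sg g) := min'_mem _ _
  obtain ⟨p0, hp0, hp0i⟩ := mem_image.1 hi0mem
  have hmin : ∀ p ∈ P, i0 ≤ sg g p := fun p hp => min'_le _ _ (mem_image_of_mem _ hp)
  obtain ⟨p1, hp1, hp1s⟩ := exists_mem_eq_sup P h0 (sg g)
  set s := P.sup (sg g) with hs
  have hle : ∀ p ∈ P, sg g p ≤ s := fun p hp => le_sup (f := sg g) hp
  have hi0s : i0 ≤ s := by rw [← hp0i]; exact hle p0 hp0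
  have hsome : ∀ x, (∃ p ∈ P, sg g p = i0 ∧ p ∈ Pm g x) → (st g i0 x).isSome := by
    rintro x ⟨p, hp, h1, h2⟩
    have h3 := (mem_filter.1 h2).2
    obtain ⟨-, F, b, h4, -⟩ := h3
    rw [h1] at h4
    rw [h4]; rfl
  have hsq : ∀ i, i0 ≤ i → (st g i q).isSome := fun i hi =>
    some_of_le hi (hsome q ⟨p0, hp0, hp0i, (hP p0 hp0).1⟩)
  have hsr : ∀ i, i0 ≤ i → (st g i r).isSome := fun i hi =>
    some_of_le hi (hsome r ⟨p0, hp0, hp0i, (hP p0 hp0).2.1⟩)
  have hst : ∀ x i, (st g i x).isSome → ∃ b, st g i x = some (fr g i x, b) := by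
    intro x i h
    obtain ⟨⟨F, b⟩, h1⟩ := Option.isSome_iff_exists.1 h
    exact ⟨b, by rw [fr_eq h1]; exact h1⟩
  have hstair : ∀ x, (∀ i, i0 ≤ i → (st g i x).isSome) → ∀ i,
      CF.KK g (i0 + (i + 1)) x (fr g (i0 + (i + 1)) x) ≤ CF.KK g (i0 + i) x (fr g (i0 + i) x) ∧
      (fr g (i0 + (i + 1)) x ≠ fr g (i0 + i) x →
        Real.exp 1 ≤ CF.KK g (i0 + i) x (fr g (i0 + i) x) ∧
        CF.KK g (i0 + (i + 1)) x (fr g (i0 + (i + 1)) x) ^ 2 ≤ CF.KK g (i0 + i) x (fr g (i0 + i) x)) := by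
    intro x hx i
    obtain ⟨b, h1⟩ := hst x (i0 + i) (hx _ (by omega))
    obtain ⟨b', h2⟩ := hst x (i0 + (i + 1)) (hx _ (by omega))
    obtain ⟨h3, h4⟩ := PA.stair g.K.P (dat g) h1 h2
    refine ⟨h3, fun h5 => ?_⟩
    obtain ⟨h6, h7⟩ := h4 h5
    exact ⟨hρ.trans h6.le, h7⟩
  refine tail_pair3 (γ := g.γ) (α := ψ g q) (β := ψ g r) (c := c g q) (c' := c g r) hq (ψ_pos g q)
    (ψ_pos g r) hn hY (s - i0 + 1)
    (fun p => sg g p - i0) (fun i => fr g (i0 + i) q) (fun i => fr g (i0 + i) r)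
    (fun i => CF.KK g (i0 + i) q (fr g (i0 + i) q)) (fun i => CF.KK g (i0 + i) r (fr g (i0 + i) r))
    (fun i _ => PA.one_le_KK _ _ _ _) (fun i _ => PA.one_le_KK _ _ _ _)
    (fun i _ => (hstair q hsq i).1) (fun i _ => (hstair r hsr i).1)
    (fun i _ => (hstair q hsq i).2) (fun i _ => (hstair r hsr i).2)
    (fun i _ => abs_le_KK g _ q _) (fun i _ => abs_le_KK g _ r _) ?_ P ?_
  · intro i hi
    obtain ⟨μ, hμ, h1, h2, h3⟩ := hM p1 hp1 (i0 + i) (by omega)
    refine ⟨((M g (i0 + i) q : ℚ) * fr g (i0 + i) q).den, ((M g (i0 + i) r : ℚ) *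
      fr g (i0 + i) r).den, μ, Rat.den_pos _, Rat.den_pos _, hμ, PA.den_le_Kc _ _ _ _,
      PA.den_le_Kc _ _ _ _, h3, ?_⟩
    have h4 := den_aux (n := (μ : ℤ) * n) (F := fr g (i0 + i) q) (G := fr g (i0 + i) r) h1 h2
    have e : (μ : ℚ) * ((n : ℚ) + fr g (i0 + i) q * (cofac r q : ℤ) -
        fr g (i0 + i) r * (cofac q r : ℤ)) = (((μ : ℤ) * n : ℤ) : ℚ) +
        fr g (i0 + i) q * (((μ * cofac r q : ℕ) : ℤ) : ℚ) -
        fr g (i0 + i) r * (((μ * cofac q r : ℕ) : ℤ) : ℚ) := by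
      push_cast
      ring
    rw [e]
    exact h4
  · intro p hp
    obtain ⟨h1, h2, h5, h6⟩ := hP p hp
    have h4 := hle p hp
    have hsgp : i0 + (sg g p - i0) = sg g p := by
      have := hmin p hp
      omega
    obtain ⟨b, hb⟩ := hst q (sg g p) (hsq _ (hmin p hp))
    obtain ⟨b', hb'⟩ := hst r (sg g p) (hsr _ (hmin p hp))
    have hok : ∀ x, p ∈ Pm g x → ∀ {F : ℚ} {b : Bool}, st g (sg g p) x = some (F, b) →
        Ok g (sg g p) x F p := by
      intro x hx F b hxs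
      obtain ⟨-, F', b'', h7, h8⟩ := (mem_filter.1 hx).2
      rw [hxs, Option.some.injEq, Prod.mk.injEq] at h7
      rw [h7.1]
      exact h8
    have ho := hok q h1 hb
    have ho' := hok r h2 hb'
    simp only [hsgp]
    refine ⟨h6, (Pm_prime g h1).1, by omega, ho.1, ho'.1, c_spec g h1 hb, c_spec g h2 hb', ho.2,
      ho'.2, h5, ?_⟩
    intro h7
    exact hNA p hp ⟨_, _, _, _, hb, hb', h7⟩

theorem rho_le_of_le {i k q : ℕ} (h : i ≤ k) : PA.rho (dat g) i q ≤ PA.rho (dat g) k q := by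
  induction k, h using Nat.le_induction with
  | base => exact le_rfl
  | succ k _ ih => exact ih.trans (PA.rho_mono (dat g) k q)

/-- a prime which exceeds both reduced cofactors has the same exponent in `q` and `r` -/
theorem fac_eq_of_gt (hV : g.V ⊆ Icc 1 (N g)) {j q r : ℕ} (hz : zs g ≤ z g j) (hq : q ∈ g.V)
    (hr : r ∈ g.V) (hc : Clean g (z g j) q r) {p : ℕ} (hpz : p ≤ z g j)
    (h1 : rcof (z g j) (N g) (kc g q) q r < p) (h2 : rcof (z g j) (N g) (kc g q) r q < p) :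
    r.factorization p = q.factorization p := by
  have hq1 := mem_Icc.1 (hV hq)
  have hr1 := mem_Icc.1 (hV hr)
  obtain ⟨e1, e2, -, a1, a2⟩ := clean_cofac hV hz hq hr hc
  have c1 := cofac_facE hq1.1 hr1.1 p
  have c2 := cofac_facE hr1.1 hq1.1 p
  have hn : p ∉ PO (z g j) (N g) := fun h => by
    have := (mem_PO.1 h).2.1
    omega
  have d1 : (rcof (z g j) (N g) (kc g q) q r).factorization p = 0 :=
    Nat.factorization_eq_zero_of_not_dvd fun h => by
      have := Nat.le_of_dvd a1 h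
      omega
  have d2 : (rcof (z g j) (N g) (kc g q) r q).factorization p = 0 :=
    Nat.factorization_eq_zero_of_not_dvd fun h => by
      have := Nat.le_of_dvd a2 h
      omega
  have m1 : (M g j r).factorization p = 0 := by
    unfold M
    rw [od_fac, if_neg hn]
  have m2 : (M g j q).factorization p = 0 := by
    unfold M
    rw [od_fac, if_neg hn]
  rw [e1, Nat.factorization_mul (M_pos g j r).ne' a1.ne', Finsupp.add_apply, m1, d1] at c1
  rw [e2, Nat.factorization_mul (M_pos g j q).ne' a2.ne', Finsupp.add_apply, m2, d2] at c2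
  omega

/-- the deficits of `q` at the primes in `(z i, z j]` -/
noncomputable def mid (g : Cfg) (i j q : ℕ) : ℕ :=
  ∏ p ∈ (PO (z g i) (N g)).filter (fun p => p ≤ z g j), p ^ (kc g q p - q.factorization p)

theorem mid_pos (i j q : ℕ) : 0 < mid g i j q :=
  prod_pow_pos_of (fun _ hp => PO_prime (mem_filter.1 hp).1) _

theorem mid_fac (i j q p : ℕ) : (mid g i j q).factorization p =
    if p ∈ PO (z g i) (N g) ∧ p ≤ z g j then kc g q p - q.factorization p else 0 := by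
  unfold mid
  rw [factorization_prod_pow_of (fun _ hp => PO_prime (mem_filter.1 hp).1) _ p]
  simp only [mem_filter]

/-- `M_i = M_j * mid` -/
theorem M_eq_mid {i j q : ℕ} (h : z g i ≤ z g j) : M g i q = M g j q * mid g i j q := by
  refine Nat.eq_of_factorization_eq (M_pos g i q).ne'
    (mul_pos (M_pos g j q) (mid_pos i j q)).ne' fun p => ?_
  rw [Nat.factorization_mul (M_pos g j q).ne' (mid_pos i j q).ne', Finsupp.add_apply, mid_fac]
  unfold M
  rw [od_fac, od_fac]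
  by_cases h1 : p ∈ PO (z g i) (N g)
  · by_cases h2 : p ≤ z g j
    · have h3 : p ∉ PO (z g j) (N g) := fun h => by
        have := (mem_PO.1 h).2.1
        omega
      rw [if_pos h1, if_neg h3, if_pos ⟨h1, h2⟩, zero_add]
    · have h3 : p ∈ PO (z g j) (N g) := by
        have h4 := mem_PO.1 h1
        exact mem_PO.2 ⟨h4.1, by omega, h4.2.2⟩
      rw [if_pos h1, if_pos h3, if_neg fun h => h2 h.2, add_zero]
  · have h3 : p ∉ PO (z g j) (N g) := fun h5 => h1 (PO_mono h h5)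
    rw [if_neg h1, if_neg h3, if_neg fun h => h1 h.1]

/-- **The agreement of a clean triple at the stages where it is not aligned.** -/
theorem agr_clean : ∃ C > 0, ∀ g : Cfg, Real.exp 1 ≤ g.K.P.ρ0 ^ (-g.K.P.c0) →
    JsOK g.K g.Js → g.Js ≤ g.X → g.V ⊆ Icc 1 (N g) → ∀ q ∈ g.V, ∀ r ∈ g.V, ∀ j : ℕ,
    Clean g (z g j) q r → ∀ n ∈ Sh g q r, ∀ P : Finset ℕ,
    (∀ p ∈ P, p ∈ Pm g q ∧ p ∈ Pm g r ∧ ¬ Al g (sg g p) q r n ∧
      (PA.rho (dat g) (sg g p) q ≤ 1 ∨ PA.rho (dat g) (sg g p) r ≤ 1) ∧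
      (p : ℤ) ∣ n - (c g q p * (cofac r q : ℤ) - c g r p * (cofac q r : ℤ))) →
    (pr P)⁻¹ ≤ C * Real.log (2 + max (Dl g q r)
      (max (rcof (z g j) (N g) (kc g q) q r : ℝ) (rcof (z g j) (N g) (kc g q) r q : ℝ))) := by
  classical
  obtain ⟨C, hC, hMe⟩ := Vale.P028.pr_inv_le_log
  refine ⟨2 * C * Real.exp 352, by positivity, ?_⟩
  intro g hρ hJ hX hV q hq r hr j hc n hn P hP
  have hq1 := mem_Icc.1 (hV hq)
  have hr1 := mem_Icc.1 (hV hr)
  have hX1 : 1 ≤ g.X := by linarith [hJ.1]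
  have hz : zs g ≤ z g j := zs_le_z hJ hX j
  obtain ⟨e1, e2, -, a1, a2⟩ := clean_cofac hV hz hq hr hc
  set a : ℕ := rcof (z g j) (N g) (kc g q) q r with ha
  set b : ℕ := rcof (z g j) (N g) (kc g q) r q with hb
  set Y₀ : ℝ := max (Dl g q r) (max (a : ℝ) (b : ℝ)) with hYd
  have hY₀D : Dl g q r ≤ Y₀ := le_max_left _ _
  have hY₀a : (a : ℝ) ≤ Y₀ := (le_max_left _ _).trans (le_max_right _ _)
  have hY₀b : (b : ℝ) ≤ Y₀ := (le_max_right _ _).trans (le_max_right _ _)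
  have hY₀1 : 1 ≤ Y₀ := le_trans (by exact_mod_cast a1) hY₀a
  obtain ⟨Y, hYY⟩ : ∃ Y : ℝ, Y = 2 * Y₀ := ⟨_, rfl⟩
  have hYD : Dl g q r ≤ Y := by linarith
  have hYa2 : 2 * (a : ℝ) ≤ Y := by linarith
  have hYb2 : 2 * (b : ℝ) ≤ Y := by linarith
  have hYa : (a : ℝ) ≤ Y := by linarith
  have hYb : (b : ℝ) ≤ Y := by linarith
  have hY1 : 1 ≤ Y := by linarith
  have hPp : ∀ p ∈ P, p.Prime := fun p hp => (Pm_prime g (hP p hp).1).1
  have hsplit : pr P = pr (P.filter fun p : ℕ => (p : ℝ) ≤ 2 + Y) *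
      pr (P.filter fun p : ℕ => ¬ (p : ℝ) ≤ 2 + Y) := by
    unfold pr
    exact (prod_filter_mul_prod_filter_not _ _ _).symm
  have h1 : (pr (P.filter fun p : ℕ => (p : ℝ) ≤ 2 + Y))⁻¹ ≤ C * Real.log (2 + Y) :=
    hMe _ _ (by linarith) fun p hp => ⟨hPp p (mem_filter.1 hp).1, (mem_filter.1 hp).2⟩
  have h2 : (pr (P.filter fun p : ℕ => ¬ (p : ℝ) ≤ 2 + Y))⁻¹ ≤ Real.exp 352 := by
    refine agr_deep (g := g) (r := r) hρ hq1.1 (n := n) ?_ hY1 _ ?_ ?_ ?_
    · have h3 := mem_Sh hn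
      have e : (n : ℝ) + g.γ * ((cofac r q : ℝ) - cofac q r) =
          (n : ℝ) - ((cofac q r : ℝ) - cofac r q) * g.γ := by ring
      rw [e]
      exact h3
    · intro p hp
      exact (hP p (mem_filter.1 hp).1).2.2.1
    · intro p hp i hi
      obtain ⟨hp1, hp2⟩ := mem_filter.1 hp
      obtain ⟨b1, b2, b3, b4, b5⟩ := hP p hp1
      have hpY : Y < p := by
        push Not at hp2
        linarith
      have hpN : p ≤ N g := (Nat.le_of_dvd hq1.1 (Pm_prime g b1).2).trans hq1.2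
      have hsg := sg_spec hJ hX (Pm_gt hJ hX b1) hpN
      have hzi : p ≤ z g i := hsg.2.2.2.trans (z_anti g hi)
      rcases le_or_gt (z g j) (z g i) with hji | hji
      · obtain ⟨m1, m2⟩ := M_dvd_cofac hV hq hr hc hz hji
        refine ⟨1, one_pos, by rwa [one_mul], by rwa [one_mul], ?_⟩
        rw [Nat.cast_one, one_mul]
        exact hYD
      · have hab : a < p ∧ b < p := by
          constructor
          · have : (a : ℝ) < p := lt_of_le_of_lt hYa hpY
            exact_mod_cast this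
          · have : (b : ℝ) < p := lt_of_le_of_lt hYb hpY
            exact_mod_cast this
        have hfe : ∀ p' : ℕ, p'.Prime → z g i < p' → p' ≤ z g j →
            r.factorization p' = q.factorization p' := fun p' hp' h3 h4 =>
          fac_eq_of_gt hV hz hq hr hc h4 (by omega) (by omega)
        have hcell := (clean_cross hV hz hq hr hc).1
        have hcell' : r ∈ NT.cell g.V (f g) (thr g) (N g) (z g i) q :=
          cell_down hr hcell hfe hji.le
        have hmid : mid g i j r = mid g i j q := by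
          unfold mid
          refine prod_congr rfl fun p' hp' => ?_
          obtain ⟨h3, h4⟩ := mem_filter.1 hp'
          obtain ⟨h5, h6, h7⟩ := mem_PO.1 h3
          rw [kc_congr hcell' h6, hfe p' h5 h6 h4]
        have hMq := M_eq_mid (g := g) (q := q) hji.le
        have hMr := M_eq_mid (g := g) (q := r) hji.le
        refine ⟨mid g i j q, mid_pos i j q, ?_, ?_, ?_⟩
        · rw [hMq, e2]
          exact ⟨b, by ring⟩
        · rw [hMr, hmid, e1]
          exact ⟨a, by ring⟩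
        · have h6 := Dl_eq (g := g) hX1 hq1.1 hr1.1
          rcases b4 with b4 | b4
          · have h7 : PA.rho (dat g) i q ≤ 1 := (rho_le_of_le hi).trans b4
            have h8 : (M g i q : ℝ) * ψ g q ≤ 2 := by linarith [le_two_rho g i q]
            rw [hMq] at h8
            rw [← h6.1, e2]
            push_cast at h8 ⊢
            have hb0 : (0 : ℝ) ≤ b := Nat.cast_nonneg _
            calc (mid g i j q : ℝ) * ((M g j q : ℝ) * b * ψ g q)
                = ((M g j q : ℝ) * mid g i j q * ψ g q) * b := by ring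
              _ ≤ 2 * b := mul_le_mul_of_nonneg_right h8 hb0
              _ ≤ Y := hYb2
          · have h7 : PA.rho (dat g) i r ≤ 1 := (rho_le_of_le hi).trans b4
            have h8 : (M g i r : ℝ) * ψ g r ≤ 2 := by linarith [le_two_rho g i r]
            rw [hMr, hmid] at h8
            rw [← h6.2, e1]
            push_cast at h8 ⊢
            have ha0 : (0 : ℝ) ≤ a := Nat.cast_nonneg _
            calc (mid g i j q : ℝ) * ((M g j r : ℝ) * a * ψ g r)
                = ((M g j r : ℝ) * mid g i j q * ψ g r) * a := by ring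
              _ ≤ 2 * a := mul_le_mul_of_nonneg_right h8 ha0
              _ ≤ Y := hYa2
    · intro p hp
      obtain ⟨hp1, hp2⟩ := mem_filter.1 hp
      obtain ⟨b1, b2, b3, b4, b5⟩ := hP p hp1
      push Not at hp2
      exact ⟨b1, b2, by linarith, b5⟩
  have hp1 : 0 ≤ (pr (P.filter fun p : ℕ => ¬ (p : ℝ) ≤ 2 + Y))⁻¹ := by
    unfold pr
    exact inv_nonneg.2 (prod_nonneg fun p hp => (factor_pos (hPp p (mem_filter.1 hp).1)).le)
  have hlog : 0 ≤ Real.log (2 + Y) := Real.log_nonneg (by linarith)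
  have hlog2 : Real.log (2 + Y) ≤ 2 * Real.log (2 + Y₀) := by
    have h3 : Real.log ((2 + Y₀) ^ 2) = 2 * Real.log (2 + Y₀) := by
      rw [Real.log_pow]
      norm_num
    rw [← h3]
    exact Real.log_le_log (by linarith) (by rw [hYY]; nlinarith)
  rw [hsplit, mul_inv]
  calc (pr (P.filter fun p : ℕ => (p : ℝ) ≤ 2 + Y))⁻¹ *
        (pr (P.filter fun p : ℕ => ¬ (p : ℝ) ≤ 2 + Y))⁻¹
      ≤ (C * Real.log (2 + Y)) * Real.exp 352 :=
        mul_le_mul h1 h2 hp1 (by positivity)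
    _ ≤ (C * (2 * Real.log (2 + Y₀))) * Real.exp 352 := by gcongr
    _ = _ := by ring

/-! ### The gain of a pair with full gains at the unaligned primes -/

open Classical in
/-- the gain of `s` from the primes in `(zs, x]`, with the full gain at the primes of `U` -/
noncomputable def TFu (g : Cfg) (δ : ℕ → ℕ → ℝ) (x s : ℕ) (U : ℕ → Prop) : ℝ :=
  ∏ p ∈ s.primeFactors.filter (fun p => zs g < p ∧ p ≤ x),
    (if U p then 1 - 1 / (p : ℝ) else 1 - dq g δ s p / p)

theorem TFu_nonneg {δ : ℕ → ℕ → ℝ} (hδ : Om δ) (x s : ℕ) (U : ℕ → Prop) : 0 ≤ TFu g δ x s U := by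
  classical
  unfold TFu
  refine prod_nonneg fun p hp => ?_
  have hpp := Nat.prime_of_mem_primeFactors (mem_filter.1 hp).1
  split_ifs
  · exact (factor_pos hpp).le
  · exact (one_sub_dq_pos hδ s hpp).1.le

/-- the primes of `s` at which the pair has a cofactor -/
theorem sdiff_le_Gn {q r s x : ℕ} (hq : 0 < q) (hr : 0 < r) (hs : s = q ∨ s = r) :
    ∏ p ∈ (s.primeFactors.filter (fun p => zs g < p ∧ p ≤ x)) \
      ((q.primeFactors ∩ r.primeFactors).filter
        (fun p => (zs g < p ∧ p ≤ x) ∧ ¬ p ∣ cofac q r ∧ ¬ p ∣ cofac r q)),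
      (1 - 1 / (p : ℝ))⁻¹ ≤ NT.Gn (cofac q r) * NT.Gn (cofac r q) := by
  classical
  have hs0 : 0 < s := by rcases hs with h | h <;> rw [h] <;> assumption
  have h3 : ∏ p ∈ (s.primeFactors.filter (fun p => zs g < p ∧ p ≤ x)) \
      ((q.primeFactors ∩ r.primeFactors).filter
        (fun p => (zs g < p ∧ p ≤ x) ∧ ¬ p ∣ cofac q r ∧ ¬ p ∣ cofac r q)),
      (1 - 1 / (p : ℝ))⁻¹ ≤
      ∏ p ∈ (cofac q r).primeFactors ∪ (cofac r q).primeFactors, (1 - 1 / (p : ℝ))⁻¹ := by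
    refine prod_le_of_subset (fun p hp => ?_) fun p hp => ?_
    · obtain ⟨h4, h5⟩ := mem_sdiff.1 hp
      obtain ⟨h6, h7⟩ := mem_filter.1 h4
      have hpp := Nat.prime_of_mem_primeFactors h6
      by_contra hno
      rw [mem_union, not_or] at hno
      have hu : ¬ p ∣ cofac q r := fun h =>
        hno.1 (Nat.mem_primeFactors.2 ⟨hpp, h, (cofac_pos r hq).ne'⟩)
      have hv : ¬ p ∣ cofac r q := fun h =>
        hno.2 (Nat.mem_primeFactors.2 ⟨hpp, h, (cofac_pos q hr).ne'⟩)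
      have hd := dvd_of_not_cofac hpp hu hv
      apply h5
      have hps := Nat.dvd_of_mem_primeFactors h6
      have hpq : p ∣ q := by
        rcases hs with h | h
        · rw [← h]; exact hps
        · exact hd.2 (by rw [← h]; exact hps)
      exact mem_filter.2 ⟨mem_inter.2 ⟨Nat.mem_primeFactors.2 ⟨hpp, hpq, hq.ne'⟩,
        Nat.mem_primeFactors.2 ⟨hpp, hd.1 hpq, hr.ne'⟩⟩, h7, hu, hv⟩
    · rcases mem_union.1 hp with h | h
      · exact one_le_inv_factor (Nat.prime_of_mem_primeFactors h)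
      · exact one_le_inv_factor (Nat.prime_of_mem_primeFactors h)
  refine h3.trans (le_of_eq ?_)
  unfold NT.Gn
  exact prod_union (cofac_coprime hq).disjoint_primeFactors

/-- **The gain of a clean pair: full gains at the primes where the triple is not aligned.**
`U` is any set of primes at whose stages the triple is not aligned (and the radius of `q` or `r`
is at most `1`). -/
theorem TP_le_TFu : ∃ C > 0, ∀ g : Cfg, Real.exp 1 ≤ g.K.P.ρ0 ^ (-g.K.P.c0) →
    JsOK g.K g.Js → g.Js ≤ g.X → g.V ⊆ Icc 1 (N g) → ∀ δ : ℕ → ℕ → ℝ, Om δ →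
    ∀ q ∈ g.V, ∀ r ∈ g.V, ∀ j : ℕ,
    Clean g (z g j) q r → ∀ n ∈ Sh g q r, ∀ x : ℕ, ∀ U : ℕ → Prop,
    (∀ p, U p → zs g < p → p ≤ x → p ∣ q → p ∣ r → ¬ Al g (sg g p) q r n ∧
      (PA.rho (dat g) (sg g p) q ≤ 1 ∨ PA.rho (dat g) (sg g p) r ≤ 1)) →
    TP g δ x q r n ≤ (C * Real.log (2 + max (Dl g q r)
      (max (rcof (z g j) (N g) (kc g q) q r : ℝ) (rcof (z g j) (N g) (kc g q) r q : ℝ)))) *
        (NT.Gn (cofac q r) * NT.Gn (cofac r q)) * TFu g δ x q U ∧
    TP g δ x q r n ≤ (C * Real.log (2 + max (Dl g q r)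
      (max (rcof (z g j) (N g) (kc g q) q r : ℝ) (rcof (z g j) (N g) (kc g q) r q : ℝ)))) *
        (NT.Gn (cofac q r) * NT.Gn (cofac r q)) * TFu g δ x r U := by
  classical
  obtain ⟨C, hC, hA⟩ := agr_clean
  refine ⟨C, hC, ?_⟩
  intro g hρ hJ hX hV δ hδ q hq r hr j hc n hn x U hU
  have hq1 := mem_Icc.1 (hV hq)
  have hr1 := mem_Icc.1 (hV hr)
  set L : ℝ := C * Real.log (2 + max (Dl g q r)
      (max (rcof (z g j) (N g) (kc g q) q r : ℝ) (rcof (z g j) (N g) (kc g q) r q : ℝ))) with hL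
  obtain ⟨A, hAd⟩ : ∃ A, A = (q.primeFactors ∩ r.primeFactors).filter
    (fun p => (zs g < p ∧ p ≤ x) ∧ ¬ p ∣ cofac q r ∧ ¬ p ∣ cofac r q) := ⟨_, rfl⟩
  have hAm : ∀ p ∈ A, p.Prime ∧ p ∣ q ∧ p ∣ r ∧ zs g < p ∧ p ≤ x := by
    intro p hp
    rw [hAd] at hp
    obtain ⟨h1, h2⟩ := mem_filter.1 hp
    obtain ⟨h3, h4⟩ := mem_inter.1 h1
    exact ⟨Nat.prime_of_mem_primeFactors h3, Nat.dvd_of_mem_primeFactors h3,
      Nat.dvd_of_mem_primeFactors h4, h2.1⟩
  set P : Finset ℕ := A.filter (fun p => U p ∧ p ∈ Pm g q ∧ p ∈ Pm g r ∧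
    (p : ℤ) ∣ n - (c g q p * (cofac r q : ℤ) - c g r p * (cofac q r : ℤ))) with hPd
  have hPL : (pr P)⁻¹ ≤ L := by
    refine hA g hρ hJ hX hV q hq r hr j hc n hn P fun p hp => ?_
    obtain ⟨h1, h2, h3, h4, h5⟩ := mem_filter.1 hp
    obtain ⟨a1, a2, a3, a4, a5⟩ := hAm p h1
    obtain ⟨b1, b2⟩ := hU p h2 a4 a5 a2 a3
    exact ⟨h3, h4, b1, b2, h5⟩
  have hprP : (pr P)⁻¹ = ∏ p ∈ P, (1 - 1 / (p : ℝ))⁻¹ := by
    unfold pr
    rw [prod_inv_distrib]
  have key : ∀ s : ℕ, (s = q ∨ s = r) → TP g δ x q r n ≤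
      L * (NT.Gn (cofac q r) * NT.Gn (cofac r q)) * TFu g δ x s U := by
    intro s hs
    set w : ℕ → ℝ := fun p => if U p then 1 - 1 / (p : ℝ) else 1 - dq g δ s p / p with hw
    have hw0 : ∀ p : ℕ, p.Prime → 0 < w p ∧ 1 - 1 / (p : ℝ) ≤ w p ∧ w p ≤ 1 := by
      intro p hp
      have h1 := one_sub_dq_pos (g := g) hδ s hp
      have h2 := factor_pos hp
      simp only [hw]
      split_ifs
      · exact ⟨h2, le_rfl, factor_le_one⟩
      · exact ⟨h1.1, h1.2.1, h1.2.2⟩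
    -- the pair gain
    have h1 : TP g δ x q r n ≤ (∏ p ∈ A, w p) * ∏ p ∈ P, (1 - 1 / (p : ℝ))⁻¹ := by
      have e1 : (∏ p ∈ A, w p) * ∏ p ∈ P, (1 - 1 / (p : ℝ))⁻¹ =
          ∏ p ∈ A, (w p * if (U p ∧ p ∈ Pm g q ∧ p ∈ Pm g r ∧
            (p : ℤ) ∣ n - (c g q p * (cofac r q : ℤ) - c g r p * (cofac q r : ℤ)))
              then (1 - 1 / (p : ℝ))⁻¹ else 1) := by
        rw [prod_mul_distrib, hPd, prod_filter]
      rw [e1]
      unfold TP
      rw [← hAd]
      refine prod_le_prod (fun p hp => (lc_bounds hδ q r n (hAm p hp).1).1) fun p hp => ?_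
      have hpp := (hAm p hp).1
      obtain ⟨b0, b1, b2⟩ := lc_bounds (g := g) hδ q r n hpp
      have hf := factor_pos hpp
      by_cases hc1 : U p ∧ p ∈ Pm g q ∧ p ∈ Pm g r ∧
            (p : ℤ) ∣ n - (c g q p * (cofac r q : ℤ) - c g r p * (cofac q r : ℤ))
      · rw [if_pos hc1]
        have e2 : w p = 1 - 1 / (p : ℝ) := by simp only [hw, if_pos hc1.1]
        rw [e2, mul_inv_cancel₀ hf.ne']
        exact b1.trans (one_sub_dq_pos (g := g) hδ q hpp).2.2
      · rw [if_neg hc1, mul_one]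
        by_cases hUp : U p
        · have e2 : w p = 1 - 1 / (p : ℝ) := by simp only [hw, if_pos hUp]
          have e3 : lc g δ q r n p = 1 - 1 / (p : ℝ) := by
            unfold lc
            rw [if_neg fun h => hc1 ⟨hUp, h⟩]
          rw [e2, e3]
        · have e2 : w p = 1 - dq g δ s p / p := by simp only [hw, if_neg hUp]
          rw [e2]
          rcases hs with h | h
          · rw [h]; exact b1
          · rw [h]; exact b2
    -- from the common primes to all the primes of `s`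
    obtain ⟨B, hB⟩ : ∃ B, B = s.primeFactors.filter (fun p => zs g < p ∧ p ≤ x) := ⟨_, rfl⟩
    have hBm : ∀ p ∈ B, p.Prime := fun p hp =>
      Nat.prime_of_mem_primeFactors (mem_filter.1 (hB ▸ hp)).1
    have hAB : A ⊆ B := by
      intro p hp
      rw [hAd] at hp
      obtain ⟨h1, h2⟩ := mem_filter.1 hp
      obtain ⟨h3, h4⟩ := mem_inter.1 h1
      rw [hB]
      refine mem_filter.2 ⟨?_, h2.1⟩
      rcases hs with h | h
      · rw [h]; exact h3
      · rw [h]; exact h4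
    have h2 : ∏ p ∈ B \ A, (1 - 1 / (p : ℝ))⁻¹ ≤ NT.Gn (cofac q r) * NT.Gn (cofac r q) := by
      rw [hAd, hB]
      exact sdiff_le_Gn (g := g) hq1.1 hr1.1 hs
    have hA0 : 0 ≤ ∏ p ∈ A, w p := prod_nonneg fun p hp => (hw0 p (hAm p hp).1).1.le
    have h3 : ∏ p ∈ A, w p ≤ TFu g δ x s U * ∏ p ∈ B \ A, (1 - 1 / (p : ℝ))⁻¹ := by
      have h4 : TFu g δ x s U = (∏ p ∈ A, w p) * ∏ p ∈ B \ A, w p := by
        unfold TFu
        rw [← hB, ← prod_sdiff hAB, mul_comm]
      rw [h4, mul_assoc, ← prod_mul_distrib]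
      refine le_mul_of_one_le_right hA0 ?_
      refine prod_one_le fun p hp => ?_
      have hpp := hBm p (mem_sdiff.1 hp).1
      rw [← div_eq_mul_inv, le_div_iff₀ (factor_pos hpp), one_mul]
      exact (hw0 p hpp).2.1
    have hT := TFu_nonneg (g := g) hδ x s U
    have hL0 : 0 ≤ ∏ p ∈ P, (1 - 1 / (p : ℝ))⁻¹ := prod_nonneg fun p hp =>
      (inv_pos.2 (factor_pos (hAm p (mem_filter.1 hp).1).1)).le
    rw [hprP] at hPL
    have hG : 0 ≤ NT.Gn (cofac q r) * NT.Gn (cofac r q) := by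
      have := one_le_Gn (cofac q r)
      have := one_le_Gn (cofac r q)
      positivity
    calc TP g δ x q r n ≤ (∏ p ∈ A, w p) * ∏ p ∈ P, (1 - 1 / (p : ℝ))⁻¹ := h1
      _ ≤ (TFu g δ x s U * (NT.Gn (cofac q r) * NT.Gn (cofac r q))) *
          ∏ p ∈ P, (1 - 1 / (p : ℝ))⁻¹ :=
          mul_le_mul_of_nonneg_right (h3.trans (mul_le_mul_of_nonneg_left h2 hT)) hL0
      _ ≤ (TFu g δ x s U * (NT.Gn (cofac q r) * NT.Gn (cofac r q))) * L :=
          mul_le_mul_of_nonneg_left hPL (mul_nonneg hT hG)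
      _ = _ := by ring
  exact ⟨key q (Or.inl rfl), key r (Or.inr rfl)⟩

end Vale.P028.SK
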