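-- RD-BASE a43a24eccc8c8f9a88190e5be53058dd92c4e9f7
import Vale.Agent.P028.MathlibUsed
import Vale.Agent.P028.RD.H530.OutLaw
import Vale.Agent.P028.RD.R226.C1
attribute [-instance] ProperSMul.toContinuousSMul IsTopologicalTorsor.toContinuousSMul IdemSemiring.toCanonicallyOrderedAdd IdemSemiring.toMulLeftMono IdemSemiring.toMulRightMono AddQuantale.instAddLeftMono AddQuantale.instAddRightMono Quantale.instMulLeftMono Quantale.instMulRightMono FiniteDimensional.rclike_to_real IsScalarTower.complexToReal FiniteDimensional.complexToReal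

/-!
# The flags of a pair which agrees on an interval of primes, and the linking of two stages
-/

namespace Vale.P028.SK

open Finset CF RN

variable {g : Cfg}

/-- a prime which divides none of the reduced cofactors has the same exponent in `q` and `r` -/
theorem fac_eq_of_ndvd (hV : g.V ⊆ Icc 1 (N g)) {j q r : ℕ} (hz : zs g ≤ z g j) (hq : q ∈ g.V)
    (hr : r ∈ g.V) (hc : Clean g (z g j) q r) {p : ℕ} (hpz : p ≤ z g j)
    (h1 : ¬ p ∣ rcof (z g j) (N g) (kc g q) q r) (h2 : ¬ p ∣ rcof (z g j) (N g) (kc g q) r q) :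
    r.factorization p = q.factorization p := by
  have hq1 := mem_Icc.1 (hV hq)
  have hr1 := mem_Icc.1 (hV hr)
  obtain ⟨e1, e2, -, a1, a2⟩ := clean_cofac hV hz hq hr hc
  have c1 := cofac_facE hq1.1 hr1.1 p
  have c2 := cofac_facE hr1.1 hq1.1 p
  have hn : p ∉ PO (z g j) (N g) := fun h => by
    have := (mem_PO.1 h).2.1
    omega
  have d1 : (rcof (z g j) (N g) (kc g q) q r).factorization p = 0 :=
    Nat.factorization_eq_zero_of_not_dvd h1
  have d2 : (rcof (z g j) (N g) (kc g q) r q).factorization p = 0 :=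
    Nat.factorization_eq_zero_of_not_dvd h2
  have m1 : (M g j r).factorization p = 0 := by
    unfold M
    rw [od_fac, if_neg hn]
  have m2 : (M g j q).factorization p = 0 := by
    unfold M
    rw [od_fac, if_neg hn]
  rw [e1, Nat.factorization_mul (M_pos g j r).ne' a1.ne', Finsupp.add_apply, m1, d1] at c1
  rw [e2, Nat.factorization_mul (M_pos g j q).ne' a2.ne', Finsupp.add_apply, m2, d2] at c2
  omega

/-- **the flags**: two elements of one `z_i`-cell with the same exponents in `(z_j, z_i]` are in one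
`z_j`-cell, have the same flags and masses at the places in `[N - z_i, N - z_j)`, and their
deficits grow by the same factor -/
theorem flags {i j : ℕ} (hij : i ≤ j) {q r : ℕ} (hr : r ∈ g.V)
    (hc : r ∈ NT.cell g.V (f g) (thr g) (N g) (z g i) q)
    (he : ∀ p : ℕ, p.Prime → z g j < p → p ≤ z g i → r.factorization p = q.factorization p) :
    r ∈ NT.cell g.V (f g) (thr g) (N g) (z g j) q ∧
    (∀ k, N g - z g i ≤ k → k < N g - z g j → uw g q k = uw g r k) ∧
    (∀ (c1 : ℝ) (k : ℕ), k < N g - z g j → muw g c1 q k = muw g c1 r k) ∧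
    M g j q * M g i r = M g j r * M g i q := by
  have hzz : z g j ≤ z g i := z_anti g hij
  have hcell : r ∈ NT.cell g.V (f g) (thr g) (N g) (z g j) q := cell_down hr hc he hzz
  refine ⟨hcell, fun k hk1 hk2 => ?_, fun c1 k hk => (muw_out hcell c1 hk).symm, ?_⟩
  · have hp1 : z g j < N g - k := by omega
    have hp2 : N g - k ≤ z g i := by omega
    have e : (Md g q).factorization (N g - k) = (Md g r).factorization (N g - k) := by
      rw [Md_fac, Md_fac]
      by_cases hp : N g - k ∈ PO (zs g) (N g)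
      · rw [if_pos hp, if_pos hp, kc_congr hcell hp1, he _ (mem_PO.1 hp).1 hp1 hp2]
      · rw [if_neg hp, if_neg hp]
    unfold uw
    congr 1
    rw [eq_iff_iff]
    have e2 : ∀ h : k < N g, wo g q ⟨k, h⟩ = wo g r ⟨k, h⟩ := by
      intro h
      refine Fin.ext ?_
      unfold wo wd
      simp only
      rw [e]
    constructor
    · rintro ⟨h, h'⟩
      exact ⟨h, by rwa [e2 h] at h'⟩
    · rintro ⟨h, h'⟩
      exact ⟨h, by rwa [e2 h]⟩
  · refine Nat.eq_of_factorization_eq (Nat.mul_ne_zero (M_pos g j q).ne' (M_pos g i r).ne')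
      (Nat.mul_ne_zero (M_pos g j r).ne' (M_pos g i q).ne') fun p => ?_
    rw [Nat.factorization_mul (M_pos g j q).ne' (M_pos g i r).ne',
      Nat.factorization_mul (M_pos g j r).ne' (M_pos g i q).ne', Finsupp.add_apply,
      Finsupp.add_apply, M_fac', M_fac', M_fac', M_fac']
    by_cases h1 : p ∈ PO (z g i) (N g)
    · have h2 : p ∈ PO (z g j) (N g) := PO_mono hzz h1
      rw [if_pos h1, if_pos h1, if_pos h2, if_pos h2]
      omega
    · rw [if_neg h1, if_neg h1]
      by_cases h2 : p ∈ PO (z g j) (N g)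
      · have h3 := mem_PO.1 h2
        have h4 : p ≤ z g i := by
          by_contra hcon
          exact h1 (mem_PO.2 ⟨h3.1, by omega, h3.2.2⟩)
        rw [if_pos h2, if_pos h2, kc_congr hcell h3.2.1, he _ h3.1 h3.2.1 h4]
      · rw [if_neg h2, if_neg h2]

theorem ms_congr {μ μ' : ℕ → ℝ} {a b : ℕ} (h : ∀ k, a ≤ k → k < b → μ k = μ' k) :
    RK.ms μ a b = RK.ms μ' a b := by
  unfold RK.ms
  exact sum_congr rfl fun k hk => h k (mem_Ico.1 hk).1 (mem_Ico.1 hk).2

theorem nd_congr {dv dv' : ℕ → Prop} {a b : ℕ} (h : ∀ k, a ≤ k → k < b → (dv k ↔ dv' k)) :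
    RK.nd dv a b = RK.nd dv' a b := by
  classical
  unfold RK.nd
  refine sum_congr rfl fun k hk => ?_
  have := h k (mem_Ico.1 hk).1 (mem_Ico.1 hk).2
  by_cases h1 : dv k
  · rw [if_pos h1, if_pos (this.1 h1)]
  · rw [if_neg h1, if_neg fun h2 => h1 (this.2 h2)]

/-- the next position after a newness stage -/
theorem le_nxw_of_lt_nxs {i j r : ℕ} (hj : j < nxs g i r) : N g - z g j ≤ nxw g r (N g - z g i) := by
  unfold nxw
  rcases RK.nx_mem_or (Ch := NwP g r) (n := N g) (N g - z g i) with h | h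
  · rw [h]
    exact Nat.sub_le _ _
  · obtain ⟨t, ht1, ht2, ht3, ht4⟩ := mem_NwP.1 h
    by_cases hsn : N g - z g i < N g
    · have h5 : N g - z g i < N g - z g t := by
        rw [ht4]
        exact RK.lt_nx hsn
      have h6 : i < t := by
        by_contra hcon
        have := z_anti g (not_lt.1 hcon)
        omega
      have h7 : j < t := by
        by_contra hcon
        exact not_Nwf_of_lt_nxs h6 (by omega) ht3
      rw [← ht4]
      have := z_anti g h7.le
      omega
    · have h5 := RK.nx_le (Ch := NwP g r) (n := N g) (N g - z g i)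
      have h6 := one_le_z g i
      have h7 : N g = 0 := by omega
      omega

/-- **the linking**: `r` is new at the stage `i`, its phase does not pay and is not finished at the
stage `j`; `q` is in the `z_i`-cell of `r` and has the same exponents in `(z_j, z_i]` -/
theorem link (hJ : JsOK g.K g.Js) (hX : g.Js ≤ g.X) (hV : g.V ⊆ Icc 1 (N g)) {c1 : ℝ}
    (h1 : 0 < c1) (hz1 : 1 ≤ c1 * zs g) {i j : ℕ} (hi : 1 ≤ i) (hin : i ≤ nst g) (hij : i ≤ j)
    {q r : ℕ} (hr : r ∈ g.V)
    (hc : r ∈ NT.cell g.V (f g) (thr g) (N g) (z g i) q)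
    (he : ∀ p : ℕ, p.Prime → z g j < p → p ≤ z g i → r.factorization p = q.factorization p)
    (hnw : Nwf g i r) (hnp : ¬ Pyw g c1 r (N g - z g i)) (hj : j < nxs g i r) :
    ∀ b, N g - z g i ≤ b → b ≤ N g - z g j →
      RK.ms (muw g c1 q) (N g - z g i) b ≤
        2 * RK.nd (fun k => uw g q k = true) (N g - z g i) b + 3 := by
  intro b hb1 hb2
  obtain ⟨-, f2, f3, -⟩ := flags hij hr hc he
  have hP := Pos_w hJ hX hV h1 hz1 hr
  have hs : N g - z g i ∈ NwP g r := mem_NwP.2 ⟨i, hi, hin, hnw, rfl⟩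
  have h2 := hP.np _ hs hnp b hb1 (hb2.trans (le_nxw_of_lt_nxs hj))
  rw [ms_congr (μ := muw g c1 q) (μ' := muw g c1 r) fun k _ hk => f3 c1 k (by omega),
    nd_congr (dv := fun k => uw g q k = true) (dv' := fun k => uw g r k = true)
      fun k hk1 hk2 => by rw [f2 k hk1 (by omega)]]
  exact h2

/-- the linking of two stages for a clean pair whose reduced cofactors have no prime above `z_j` -/
theorem link_clean (hJ : JsOK g.K g.Js) (hX : g.Js ≤ g.X) (hV : g.V ⊆ Icc 1 (N g)) {c1 : ℝ}
    (h1 : 0 < c1) (hz1 : 1 ≤ c1 * zs g) {i j : ℕ} (hi : 1 ≤ i) (hin : i ≤ nst g) (hij : i ≤ j)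
    {q r : ℕ} (hq : q ∈ g.V) (hr : r ∈ g.V) (hc : Clean g (z g i) q r)
    (hu : ∀ p : ℕ, p.Prime → p ∣ rcof (z g i) (N g) (kc g q) q r → p ≤ z g j)
    (hv : ∀ p : ℕ, p.Prime → p ∣ rcof (z g i) (N g) (kc g q) r q → p ≤ z g j)
    (hnw : Nwf g i r) (hnp : ¬ Pyw g c1 r (N g - z g i)) (hj : j < nxs g i r) :
    M g j q * M g i r = M g j r * M g i q ∧
    ∀ b, N g - z g i ≤ b → b ≤ N g - z g j →
      RK.ms (muw g c1 q) (N g - z g i) b ≤
        2 * RK.nd (fun k => uw g q k = true) (N g - z g i) b + 3 := by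
  have hz : zs g ≤ z g i := zs_le_z hJ hX i
  have hcell := (clean_cross hV hz hq hr hc).1
  have he : ∀ p : ℕ, p.Prime → z g j < p → p ≤ z g i →
      r.factorization p = q.factorization p := fun p hp h2 h3 =>
    fac_eq_of_ndvd hV hz hq hr hc h3 (fun h => by have := hu p hp h; omega)
      (fun h => by have := hv p hp h; omega)
  exact ⟨(flags hij hr hcell he).2.2.2,
    link hJ hX hV h1 hz1 hi hin hij hr hcell he hnw hnp hj⟩

end Vale.P028.SK
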