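-- RD-BASE 9d02cbab8213d61f4e3f33eafde8c0c832f47070
import Vale.Agent.P028.MathlibUsed
import Vale.Agent.P028.RD.R226.C1
attribute [-instance] ProperSMul.toContinuousSMul IsTopologicalTorsor.toContinuousSMul IdemSemiring.toCanonicallyOrderedAdd IdemSemiring.toMulLeftMono IdemSemiring.toMulRightMono AddQuantale.instAddLeftMono AddQuantale.instAddRightMono Quantale.instMulLeftMono Quantale.instMulRightMono FiniteDimensional.rclike_to_real IsScalarTower.complexToReal FiniteDimensional.complexToReal

/-!
# A fraction does not come back while the deficit is constant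
-/

namespace Vale.P028.SK.X676

open Finset CF RN

variable {g : Cfg}

theorem M_between {i l k q : ℕ} (h1 : i ≤ l) (h2 : l ≤ k) (hM : M g i q = M g k q) :
    M g l q = M g k q := by
  have h3 := PA.M_dvd_of_le (dat g) (q := q) h1
  have h4 := PA.M_dvd_of_le (dat g) (q := q) h2
  have h3' : M g i q ∣ M g l q := h3
  have h4' : M g l q ∣ M g k q := h4
  rw [hM] at h3'
  exact Nat.dvd_antisymm h4' h3'

/-- **no return**: while the deficit is constant, an element does not adopt the fraction which it
has had before -/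
theorem no_return {i i' y : ℕ} {F : ℚ} {b b' : Bool} (hii : i < i')
    (h1 : st g i y = some (F, b)) (hn : Nw g i' y) (h2 : st g i' y = some (F, b'))
    (hM : M g i y = M g i' y) : False := by
  have hc : ∀ l, i < l → l ≤ i' - 1 → ¬ PA.ChS g.K.P (dat g) l y := by
    intro l hl hl' hch
    have hc' : PA.ChS g.K.P (dat g) i' y := hn.ch
    refine PA.M_ne_of_ch g.K.P (dat g) hch hc' (by omega) ?_
    exact M_between hl.le (by omega) hM
  have h3 := PA.st_const g.K.P (dat g) (j := i) (k := i' - 1) (q := y) (by omega) hc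
  obtain ⟨-, F', c, h4, h5⟩ := hn
  have h6 : st g i' y = some (F', c) := h4
  rw [h2, Option.some.injEq, Prod.mk.injEq] at h6
  refine h5 b ?_
  rw [h3, ← h6.1]
  exact h1

/-- the start of a pair with fixed fractions and deficits is unique -/
theorem start_unique {i i' x y : ℕ} {n n' : ℤ} {F G : ℚ} (hi : 1 ≤ i) (hi' : 1 ≤ i')
    (hT : TAj g i y x n) (hT' : TAj g i' y x n')
    (hF : ∃ b, st g i y = some (F, b)) (hG : ∃ b, st g i x = some (G, b))
    (hF' : ∃ b, st g i' y = some (F, b)) (hG' : ∃ b, st g i' x = some (G, b))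
    (hMy : M g i y = M g i' y) (hMx : M g i x = M g i' x) : i = i' := by
  have key : ∀ {a c : ℕ} {n : ℤ}, a < c → 1 ≤ c → TAj g c y x n →
      (∃ b, st g a y = some (F, b)) → (∃ b, st g a x = some (G, b)) →
      (∃ b, st g c y = some (F, b)) → (∃ b, st g c x = some (G, b)) →
      M g a y = M g c y → M g a x = M g c x → False := by
    intro a c n hac hc hT h1 h2 h3 h4 h5 h6
    obtain ⟨b1, h1⟩ := h1
    obtain ⟨b2, h2⟩ := h2
    obtain ⟨b3, h3⟩ := h3
    obtain ⟨b4, h4⟩ := h4
    rcases TAj.new hc hT with h7 | h7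
    · exact no_return hac h1 (Nwf_iff.1 h7) h3 h5
    · exact no_return hac h2 (Nwf_iff.1 h7) h4 h6
  rcases lt_trichotomy i i' with h | h | h
  · exact (key h hi' hT' hF hG hF' hG' hMy hMx).elim
  · exact h
  · exact (key h hi hT hF' hG' hF hG hMy.symm hMx.symm).elim

end Vale.P028.SK.X676
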