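-- RD-BASE bb8b565384553ffcae4a8ff6672befb5a5e3803c
import Vale.Agent.P028.MathlibUsed
import Vale.Agent.P028.RD.H676.PairX
import Vale.Agent.P028.RD.R764.LkOut
attribute [-instance] ProperSMul.toContinuousSMul IsTopologicalTorsor.toContinuousSMul IdemSemiring.toCanonicallyOrderedAdd IdemSemiring.toMulLeftMono IdemSemiring.toMulRightMono AddQuantale.instAddLeftMono AddQuantale.instAddRightMono Quantale.instMulLeftMono Quantale.instMulRightMono FiniteDimensional.rclike_to_real IsScalarTower.complexToReal FiniteDimensional.complexToReal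

/-!
# The pairs of the energy above `x`
-/

namespace Vale.P028.SK

open Finset CF RN

variable {g : Cfg}

section PD

variable {i t q r : ℕ} {n : ℤ} {F G : ℚ} {δ : ℕ → ℕ → ℝ} (hJ : JsOK g.K g.Js)
  (hX : g.Js ≤ g.X) (hV : g.V ⊆ Icc 1 (N g)) (hN : NSpl g δ) (h : PD g i t q r n F G)
  (hK : Kd g δ q r n ≠ 0) (hl1 : (Real.log (CF.KK g i q F)) ^ (3 / 2 : ℝ) ≤ t)
  (hl2 : (Real.log (CF.KK g i r G)) ^ (3 / 2 : ℝ) ≤ t) {x : ℕ} (htx : t ≤ x)
  (hB : ∀ p : ℕ, p.Prime → x < p → ¬ p ∣ BB g i q r F G)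

include hJ hX hV hN h hK hl1 hl2 htx hB

/-- **the pairs of the energy satisfy the hypotheses of the pair lemma** above every number `x`
without primes of the denominators -/
theorem PD.px (hxz : x ≤ z g i) : PX g x i q r where
  hq := h.hq
  hr := h.hr
  zx := h.zt.trans htx
  xz := hxz
  cl := h.ta.2.2.1
  hu := by
    intro p hp hxp hpa
    obtain ⟨h1, -, -, h4, -, -, -, h8⟩ := h.prime_out hJ hX hV hN hK hl1 hl2 htx hB hp hxp hpa
    refine ⟨h1, ?_, h4⟩
    rcases h8 with ⟨-, h8⟩ | h8 <;> omega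
  hv := by
    intro p hp hxp hpa
    obtain ⟨h1, -, h3, -, h5, -, -, h8⟩ :=
      h.prime_out_r hJ hX hV hN hK hl1 hl2 htx hB hp hxp hpa
    refine ⟨h1, ?_, h5⟩
    rcases h8 with ⟨-, h8⟩ | h8 <;> omega

/-- the primes of the omitted part above `x` are the omitted primes above `x` -/
theorem PD.omx_primes : (omx g x q (rcof (z g i) (N g) (kc g q) q r)).primeFactors =
    (UO g δ t (BB g i q r F G) q (rcof (z g i) (N g) (kc g q) q r)).filter (fun p => x < p) := by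
  obtain ⟨-, -, -, ha, -⟩ := clean_cofac hV (zs_le_z hJ hX i) h.hq h.hr h.ta.2.2.1
  have hq0 : 0 < q := (mem_Icc.1 (hV h.hq)).1
  ext p
  rw [mem_filter, Nat.mem_primeFactors]
  constructor
  · rintro ⟨hp, h1, -⟩
    obtain ⟨h2, h3, h4⟩ := (dvd_omx ha.ne' hp).1 h1
    obtain ⟨-, -, -, -, -, -, -, h8⟩ := h.prime_out hJ hX hV hN hK hl1 hl2 htx hB hp h2 h4
    rcases h8 with ⟨h8, -⟩ | h8
    · exact ⟨h8, h2⟩
    · omega
  · rintro ⟨h1, h2⟩
    have h3 := mem_UO.1 h1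
    have hp := UO_prime h1
    refine ⟨hp, (dvd_omx ha.ne' hp).2 ⟨h2, ((CF.mem_Pm g hq0).1 h3.2.2.2.1).2.2.1,
      Nat.dvd_of_mem_primeFactors h3.1⟩, (omx_pos _ _ _).ne'⟩

/-- the mirror statement -/
theorem PD.omx_primes_r : (omx g x r (rcof (z g i) (N g) (kc g q) r q)).primeFactors =
    (UO g δ t (BB g i q r F G) r (rcof (z g i) (N g) (kc g q) r q)).filter (fun p => x < p) := by
  have h1 := h.swap.omx_primes (δ := δ) hJ hX hV hN (by rw [Kd_swap]; exact hK) hl2 hl1 htx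
    (fun p h1 h2 => by rw [BB_swap]; exact hB p h1 h2)
  rwa [h.rcof_r hJ hX hV, BB_swap] at h1

end PD

end Vale.P028.SK
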