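-- RD-BASE 7c78d0e2077f0be3ed0939fa897b750c83cea53c
import Vale.Agent.P028.MathlibUsed
import Vale.Agent.P028.RD.R103.TSb
import Vale.Agent.P028.RD.H564.TSSum
import Vale.Agent.P028.RD.H676.Agr
attribute [-instance] ProperSMul.toContinuousSMul IsTopologicalTorsor.toContinuousSMul IdemSemiring.toCanonicallyOrderedAdd IdemSemiring.toMulLeftMono IdemSemiring.toMulRightMono AddQuantale.instAddLeftMono AddQuantale.instAddRightMono Quantale.instMulLeftMono Quantale.instMulRightMono FiniteDimensional.rclike_to_real IsScalarTower.complexToReal FiniteDimensional.complexToReal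

/-!
# Class TS, part T1: the kernel of a pair is at most the gain of `q`
-/

namespace Vale.P028.SK

open Finset CF RN

variable {g : Cfg}

/-- the constant of the loss -/
noncomputable def CL : ℝ := 30 * (Real.exp 1 * 65536 ^ 2)

theorem CL_pos : 0 < CL := by unfold CL; positivity

/-- the loss of the cofactors -/
theorem loss_le {C D G1 G2 : ℝ} (hC : 0 ≤ C) (hD0 : 0 ≤ D) (hD : D ≤ 1) {a b : ℕ} (ha : 0 < a)
    (hb : 0 < b) (hG1 : 0 ≤ G1) (hG2 : 0 ≤ G2)
    (h1 : G1 ≤ Real.exp (1 / 2) * (65536 * (a : ℝ) ^ (1 / 10 : ℝ)))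
    (h2 : G2 ≤ Real.exp (1 / 2) * (65536 * (b : ℝ) ^ (1 / 10 : ℝ))) :
    ((a : ℝ) * b) ^ (-(9 / 20) : ℝ) * (C * Real.log (2 + max D (max (a : ℝ) b)) * (G1 * G2)) ≤
      C * CL * ((a : ℝ) * b) ^ (-(1 / 4) : ℝ) := by
  have ha1 : (1 : ℝ) ≤ a := by exact_mod_cast ha
  have hb1 : (1 : ℝ) ≤ b := by exact_mod_cast hb
  set x : ℝ := (a : ℝ) * b with hx
  have hx1 : 1 ≤ x := one_le_mul_of_one_le_of_one_le ha1 hb1
  have hax : (a : ℝ) ≤ x := by rw [hx]; nlinarith
  have hbx : (b : ℝ) ≤ x := by rw [hx]; nlinarith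
  have hx0 : 0 < x := by linarith
  have h3 : 2 + max D (max (a : ℝ) b) ≤ 3 * x := by
    have := max_le (hD.trans hx1) (max_le hax hbx)
    linarith
  have h30 : 0 < 2 + max D (max (a : ℝ) b) := by
    have := le_max_left D (max (a : ℝ) b)
    linarith
  have hx10 : 0 < x ^ (1 / 10 : ℝ) := Real.rpow_pos_of_pos hx0 _
  have h4 : Real.log (2 + max D (max (a : ℝ) b)) ≤ 30 * x ^ (1 / 10 : ℝ) := by
    have e1 := Real.log_le_log h30 h3
    have e2 := Real.log_le_rpow_div (x := 3 * x) (by linarith) (ε := 1 / 10) (by norm_num)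
    have e3 : (3 * x) ^ (1 / 10 : ℝ) ≤ 3 * x ^ (1 / 10 : ℝ) := by
      rw [Real.mul_rpow (by norm_num) hx0.le]
      refine mul_le_mul_of_nonneg_right ?_ hx10.le
      calc (3 : ℝ) ^ (1 / 10 : ℝ) ≤ 3 ^ (1 : ℝ) :=
            Real.rpow_le_rpow_of_exponent_le (by norm_num) (by norm_num)
        _ = 3 := Real.rpow_one 3
    calc Real.log (2 + max D (max (a : ℝ) b)) ≤ (3 * x) ^ (1 / 10 : ℝ) / (1 / 10) := e1.trans e2
      _ ≤ (3 * x ^ (1 / 10 : ℝ)) / (1 / 10) := by gcongr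
      _ = 30 * x ^ (1 / 10 : ℝ) := by ring
  have hlog0 : 0 ≤ Real.log (2 + max D (max (a : ℝ) b)) := by
    refine Real.log_nonneg ?_
    have := le_max_left D (max (a : ℝ) b)
    linarith
  have h5 : G1 * G2 ≤ Real.exp 1 * 65536 ^ 2 * x ^ (1 / 10 : ℝ) := by
    calc G1 * G2 ≤ (Real.exp (1 / 2) * (65536 * (a : ℝ) ^ (1 / 10 : ℝ))) *
          (Real.exp (1 / 2) * (65536 * (b : ℝ) ^ (1 / 10 : ℝ))) :=
          mul_le_mul h1 h2 hG2 (by positivity)
      _ = (Real.exp (1 / 2) * Real.exp (1 / 2)) * 65536 ^ 2 *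
          ((a : ℝ) ^ (1 / 10 : ℝ) * (b : ℝ) ^ (1 / 10 : ℝ)) := by ring
      _ = _ := by
          rw [← Real.exp_add, ← Real.mul_rpow (by linarith) (by linarith), ← hx]
          norm_num
  have h6 : x ^ (-(9 / 20) : ℝ) * (x ^ (1 / 10 : ℝ) * x ^ (1 / 10 : ℝ)) =
      x ^ (-(1 / 4) : ℝ) := by
    rw [← Real.rpow_add hx0, ← Real.rpow_add hx0]
    norm_num
  have hx9 : 0 ≤ x ^ (-(9 / 20) : ℝ) := Real.rpow_nonneg hx0.le _
  calc x ^ (-(9 / 20) : ℝ) * (C * Real.log (2 + max D (max (a : ℝ) b)) * (G1 * G2))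
      ≤ x ^ (-(9 / 20) : ℝ) * (C * (30 * x ^ (1 / 10 : ℝ)) *
        (Real.exp 1 * 65536 ^ 2 * x ^ (1 / 10 : ℝ))) := by gcongr
    _ = C * CL * (x ^ (-(9 / 20) : ℝ) * (x ^ (1 / 10 : ℝ) * x ^ (1 / 10 : ℝ))) := by
        unfold CL
        ring
    _ = _ := by rw [h6]

open Classical in
/-- **T1: the kernel of a pair is at most the gain of `q`**, from the word lemma. -/
theorem tsPair_of : ∃ B > 0, ∀ g : Cfg, NumOK g.K g.Js → g.Js ≤ g.X → g.V ⊆ Icc 1 (N g) →
    ∀ S ⊆ V1 g, ∀ δ : ℕ → ℕ → ℝ, Om δ →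
    (∀ j, 1 ≤ j → j < nst g → z g (j + 1) < z g j) → (2 ≤ nst g → z g 2 < N g) →
    ∀ (c κ A : ℝ) (mu : ℕ → ℕ → ℝ) (Cp : ℕ → Finset ℕ) (Pay : ℕ → ℕ → Prop),
    DSys g S δ c κ A mu Cp Pay →
    (∀ q ∈ S, ∀ j, 1 ≤ j → j ≤ nst g → ∀ b b', ps g j ≤ b → b ≤ b' → b' ≤ N g →
      TFu g δ (z g j) q (fun p => N g - p < b) ≤
        RK.UU (dvn g q) (mu q) c (ps g j) b * WG g δ q b') →
    ∀ Rr : ℕ → ℕ → Prop, TSPair g S δ Rr c κ (B * A) mu Cp Pay := by
  obtain ⟨C, hC, hTP⟩ := TP_le_TFu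
  refine ⟨C * CL, mul_pos hC CL_pos, ?_⟩
  intro g hN hX hV S hS δ hδ hz hz2 c κ A mu Cp Pay hD hW Rr q hq r hr j hj hjn n hn hT
  have hρ := hN.e1
  have hJ := hN.js
  obtain ⟨hqV0, hqW⟩ := mem_filter.1 (hS hq)
  obtain ⟨hrV0, hrW⟩ := mem_filter.1 (hS hr)
  have hqV : q ∈ g.V := (mem_filter.1 hqV0).1
  have hrV : r ∈ g.V := (mem_filter.1 hrV0).1
  have hq1 := mem_Icc.1 (hV hqV)
  have hr1 := mem_Icc.1 (hV hrV)
  have hN0 : 0 < N g := by omega
  have hzs : zs g ≤ z g j := zs_le_z hJ hX j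
  have hz1 := one_le_z g j
  have hjN : ps g j < N g := by unfold ps; omega
  obtain ⟨hLv, hCl, hNA, -, -⟩ := id hT
  have hD4 : Dl g q r ≤ 1 / 4 :=
    (lv_lt hN hX hLv).le.trans (one_div_le_one_div_of_le (by norm_num) hJ.1)
  have hD1 : Dl g q r ≤ 1 := hD4.trans (by norm_num)
  have hD0 : 0 < Dl g q r := Dl_pos g hq1.1 hr1.1
  obtain ⟨e1, -, -, hu, hv⟩ := clean_cofac hV hzs hqV hrV hCl
  -- the gains of the cofactors
  have e1' := (clean_cofac hV hzs hqV hrV hCl).2.1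
  set a := rcof (z g j) (N g) (kc g q) q r with ha
  set b := rcof (z g j) (N g) (kc g q) r q with hb
  have hG1 : NT.Gn (cofac q r) ≤ Real.exp (1 / 2) * (65536 * (a : ℝ) ^ (1 / 10 : ℝ)) := by
    rw [e1]
    refine (Gn_mul_le (M_pos g j r) hu).trans ?_
    exact mul_le_mul (Gn_od_le hrW hzs) (Gn_le_rpow_tenth hu) (by linarith [one_le_Gn a])
      (Real.exp_pos _).le
  have hG2 : NT.Gn (cofac r q) ≤ Real.exp (1 / 2) * (65536 * (b : ℝ) ^ (1 / 10 : ℝ)) := by
    rw [e1']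
    refine (Gn_mul_le (M_pos g j q) hv).trans ?_
    exact mul_le_mul (Gn_od_le hqW hzs) (Gn_le_rpow_tenth hv) (by linarith [one_le_Gn b])
      (Real.exp_pos _).le
  have hloss := loss_le hC.le hD0.le hD1 hu hv (zero_le_one.trans (one_le_Gn (cofac q r)))
    (zero_le_one.trans (one_le_Gn (cofac r q))) hG1 hG2
  set x : ℝ := (a : ℝ) * b with hx
  have ha1 : (1 : ℝ) ≤ a := by exact_mod_cast hu
  have hb1 : (1 : ℝ) ≤ b := by exact_mod_cast hv
  have hx1 : 1 ≤ x := one_le_mul_of_one_le_of_one_le ha1 hb1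
  have hx0 : 0 < x := by linarith
  have hCL := CL_pos
  have hA := hD.A_nonneg
  set nx := RK.nx (Cp q) (N g) (ps g j) with hnx
  have hjnx : ps g j < nx := RK.lt_nx hjN
  have hnxN : nx ≤ N g := RK.nx_le _
  have hVt0 : 0 ≤ RK.Vt κ (Pay q) (Cp q) nx := (RK.Vt_bounds hD.κ_pos.le hD.κ_le _).1
  have hU0 : ∀ a b, 0 ≤ RK.UU (dvn g q) (mu q) c a b := fun a b => (RK.UU_bounds (hD.cmu q) a b).1
  -- the general bound
  have hmain : ∀ e ≤ nx, (∀ p, N g - p < e → zs g < p → p ≤ z g j → p ≤ N g →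
      ¬ Al g (sg g p) q r n ∧ PA.rho (dat g) (sg g p) q ≤ 1) →
      x ^ (-(9 / 20) : ℝ) * TP g δ (z g j) q r n ≤
        C * CL * A * (x ^ (-(1 / 4) : ℝ) *
          (RK.UU (dvn g q) (mu q) c (ps g j) e * RK.Vt κ (Pay q) (Cp q) nx)) := by
    intro e he hU
    have h1 := (hTP g hρ hJ hX hV δ hδ q hqV r hrV j hCl n hn (z g j) (fun p => N g - p < e)
      (fun p h1 h2 h3 h4 _ => by
        have h5 := hU p h1 h2 h3 ((Nat.le_of_dvd (by omega) h4).trans hq1.2)
        exact ⟨h5.1, Or.inl h5.2⟩)).1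
    have h2 : TFu g δ (z g j) q (fun p => N g - p < e) ≤
        RK.UU (dvn g q) (mu q) c (ps g j) e * WG g δ q nx := by
      rcases le_or_gt (ps g j) e with h | h
      · exact hW q hq j hj hjn e nx h he hnxN
      · have h3 := hW q hq j hj hjn (ps g j) nx le_rfl hjnx.le hnxN
        have h4 : TFu g δ (z g j) q (fun p => N g - p < e) =
            TFu g δ (z g j) q (fun p => N g - p < ps g j) := by
          unfold TFu
          refine prod_congr rfl fun p hp => ?_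
          have h5 := (mem_filter.1 hp).2.2
          have h6 : ps g j ≤ N g - p := by unfold ps; omega
          rw [if_neg (by omega), if_neg (by omega)]
        have h5 : RK.UU (dvn g q) (mu q) c (ps g j) e =
            RK.UU (dvn g q) (mu q) c (ps g j) (ps g j) := by
          unfold RK.UU
          rw [Ico_eq_empty (by omega), Ico_eq_empty (by omega)]
        rw [h4, h5]
        exact h3
    have h3 : TFu g δ (z g j) q (fun p => N g - p < e) ≤
        A * (RK.UU (dvn g q) (mu q) c (ps g j) e * RK.Vt κ (Pay q) (Cp q) nx) := by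
      refine h2.trans ?_
      calc RK.UU (dvn g q) (mu q) c (ps g j) e * WG g δ q nx
          ≤ RK.UU (dvn g q) (mu q) c (ps g j) e * (A * RK.Vt κ (Pay q) (Cp q) nx) :=
            mul_le_mul_of_nonneg_left (hD.wg q hq nx) (hU0 _ _)
        _ = _ := by ring
    have hT0 := TFu_nonneg (g := g) hδ (z g j) q (fun p => N g - p < e)
    have hx4 : 0 ≤ x ^ (-(1 / 4) : ℝ) := Real.rpow_nonneg hx0.le _
    calc x ^ (-(9 / 20) : ℝ) * TP g δ (z g j) q r n
        ≤ x ^ (-(9 / 20) : ℝ) * ((C * Real.log (2 + max (Dl g q r) (max (a : ℝ) b))) *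
          (NT.Gn (cofac q r) * NT.Gn (cofac r q)) *
            TFu g δ (z g j) q (fun p => N g - p < e)) :=
          mul_le_mul_of_nonneg_left h1 (Real.rpow_nonneg hx0.le _)
      _ = x ^ (-(9 / 20) : ℝ) * (C * Real.log (2 + max (Dl g q r) (max (a : ℝ) b)) *
          (NT.Gn (cofac q r) * NT.Gn (cofac r q))) *
            TFu g δ (z g j) q (fun p => N g - p < e) := by ring
      _ ≤ (C * CL * x ^ (-(1 / 4) : ℝ)) * (A * (RK.UU (dvn g q) (mu q) c (ps g j) e *
            RK.Vt κ (Pay q) (Cp q) nx)) :=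
          mul_le_mul hloss h3 hT0 (by positivity)
      _ = _ := by ring
  -- the three parts of the gain
  have hB0 : 0 ≤ C * CL * A := by positivity
  have hG0 : ∀ e f, 0 ≤ RK.UU (dvn g q) (mu q) c e f * RK.Vt κ (Pay q) (Cp q) nx := fun e f =>
    mul_nonneg (hU0 _ _) hVt0
  have hS0 : ∀ i ∈ Icc (j + 1) (nst g), 0 ≤ (z g i : ℝ) ^ (-(1 / 4) : ℝ) *
      (RK.UU (dvn g q) (mu q) c (ps g j) (min nx (min (ps g i) (ewp g Rr q))) *
        RK.Vt κ (Pay q) (Cp q) nx) := fun i _ =>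
    mul_nonneg (Real.rpow_nonneg (Nat.cast_nonneg _) _) (hG0 _ _)
  have hE0 : (0 : ℝ) ≤ if Exc g S Rr j q then RK.Vt κ (Pay q) (Cp q) nx else 0 := by
    split_ifs
    · exact hVt0
    · exact le_rfl
  have hGm : Gm g S Rr c κ mu Cp Pay j q =
      RK.UU (dvn g q) (mu q) c (ps g j) (min nx (ewp g Rr q)) * RK.Vt κ (Pay q) (Cp q) nx +
      ∑ i ∈ Icc (j + 1) (nst g), (z g i : ℝ) ^ (-(1 / 4) : ℝ) *
        (RK.UU (dvn g q) (mu q) c (ps g j) (min nx (min (ps g i) (ewp g Rr q))) *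
        RK.Vt κ (Pay q) (Cp q) nx) +
      (if Exc g S Rr j q then RK.Vt κ (Pay q) (Cp q) nx else 0) := rfl
  have hx41 : x ^ (-(1 / 4) : ℝ) ≤ 1 := Real.rpow_le_one_of_one_le_of_nonpos hx1 (by norm_num)
  have hx40 : 0 ≤ x ^ (-(1 / 4) : ℝ) := Real.rpow_nonneg hx0.le _
  -- the radius before the cut
  have hrho : ∀ s, s ≤ nst g → s < cst g Rr q → PA.rho (dat g) s q ≤ 1 ∧ ¬ Rr s q := by
    intro s hs hsc
    unfold cst at hsc
    split_ifs at hsc with h
    · have := Nat.find_min h hsc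
      push Not at this
      exact this hs
    · push Not at h
      exact h s hs
  have hcut : ∀ p, N g - p < ewp g Rr q → zs g < p → p ≤ N g → sg g p < cst g Rr q := by
    intro p hp hp1 hp2
    have h1 := sg_spec hJ hX hp1 hp2
    unfold ewp at hp
    split_ifs at hp with h
    · by_contra hcon
      push Not at hcon
      have h2 := z_anti g hcon
      unfold ps at hp
      have h3 := h1.2.2.2
      omega
    · omega
  have hsj : ∀ p, zs g < p → p ≤ z g j → p ≤ N g → j ≤ sg g p := by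
    intro p hp hpj hpN
    have h1 := sg_spec hJ hX hp hpN
    by_contra hcon
    push Not at hcon
    have h2 := z_anti g (show sg g p + 1 ≤ j by omega)
    have h3 := h1.2.2.1
    omega
  have hlt : ∀ p i, zs g < p → p ≤ N g → N g - p < ps g i → sg g p < i := by
    intro p i hp hpN h
    have h1 := sg_spec hJ hX hp hpN
    by_contra hcon
    push Not at hcon
    have h2 := z_anti g hcon
    have h3 := h1.2.2.2
    unfold ps at h
    omega
  -- the first case: unaligned up to the cut or up to the next newness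
  have hcase1 : (∀ p, N g - p < min nx (ewp g Rr q) → zs g < p → p ≤ z g j → p ≤ N g →
      j < sg g p → ¬ Al g (sg g p) q r n) →
      x ^ (-(9 / 20) : ℝ) * TP g δ (z g j) q r n ≤ C * CL * A * Gm g S Rr c κ mu Cp Pay j q := by
    intro h
    refine (hmain (min nx (ewp g Rr q)) (min_le_left _ _) fun p h1 h2 h3 h4 => ⟨?_, ?_⟩).trans ?_
    · rcases Nat.lt_or_ge j (sg g p) with h5 | h5
      · exact h p h1 h2 h3 h4 h5
      · exact hNA (sg g p) (sg_spec hJ hX h2 h4).1 h5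
    · exact (hrho (sg g p) (sg_spec hJ hX h2 h4).2.1
        (hcut p (lt_of_lt_of_le h1 (min_le_right _ _)) h2 h4)).1
    · refine mul_le_mul_of_nonneg_left ?_ hB0
      rw [hGm]
      have h5 := hG0 (ps g j) (min nx (ewp g Rr q))
      have h6 := mul_le_mul_of_nonneg_right hx41 h5
      rw [one_mul] at h6
      have h7 := sum_nonneg hS0
      linarith
  by_cases hex : ∃ i, j < i ∧ i ≤ nst g ∧ Al g i q r n
  swap
  · refine hcase1 fun p _ h2 _ h4 h5 hAl => hex ⟨sg g p, h5, (sg_spec hJ hX h2 h4).2.1, hAl⟩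
  obtain ⟨hi1, hi2, hi3⟩ := Nat.find_spec hex
  have hmin : ∀ s, j < s → s < Nat.find hex → ¬ Al g s q r n := by
    intro s h1 h2 h3
    exact Nat.find_min hex h2 ⟨h1, by omega, h3⟩
  set i := Nat.find hex with hi
  by_cases hA1 : (∃ t, j < t ∧ t ≤ i ∧ Nw g t q) ∨ cst g Rr q ≤ i
  · refine hcase1 fun p h1 h2 h3 h4 h5 => hmin _ h5 ?_
    rcases hA1 with ⟨t, ht1, ht2, ht3⟩ | h
    · have h6 : ps g t ∈ Cp q := (hD.cp q hq _).2 ⟨t, by omega, by omega, ht3, rfl⟩
      have h7 : nx ≤ ps g t := RK.nx_le_of_mem h6 (ps_lt hz hz2 hj ht1 (by omega))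
      exact (hlt p t h2 h4 (lt_of_lt_of_le h1 ((min_le_left _ _).trans h7))).trans_le ht2
    · exact (hcut p (lt_of_lt_of_le h1 (min_le_right _ _)) h2 h4).trans_le h
  push Not at hA1
  obtain ⟨hA2, hA3⟩ := hA1
  have hri := hrho i hi2 hA3
  by_cases hab : a ≤ z g i ∧ b ≤ z g i
  · -- the exceptional levels
    have hEx : Exc g S Rr j q := by
      refine ⟨r, hr, n, hn, hT, i, hi1, hi2, hi3, fun t ht1 ht2 => ?_, hA2, hri.1, hri.2, hab.1,
        hab.2⟩
      rcases Nat.lt_or_ge j t with h | h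
      · exact hmin t h (by omega)
      · exact hNA t ht1 h
    refine (hmain (ps g j) hjnx.le fun p h1 h2 h3 h4 => ?_).trans ?_
    · unfold ps at h1
      omega
    · refine mul_le_mul_of_nonneg_left ?_ hB0
      rw [hGm, if_pos hEx]
      have h5 : RK.UU (dvn g q) (mu q) c (ps g j) (ps g j) = 1 := by
        unfold RK.UU
        rw [Ico_self, prod_empty]
      rw [h5, one_mul]
      have h6 := mul_le_mul_of_nonneg_right hx41 hVt0
      rw [one_mul] at h6
      have h7 := sum_nonneg hS0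
      have h8 := hG0 (ps g j) (min nx (ewp g Rr q))
      linarith
  · have hxz : (z g i : ℝ) ≤ x := by
      rcases not_and_or.1 hab with h | h
      · have h1 : (z g i : ℝ) ≤ a := by exact_mod_cast (not_le.1 h).le
        rw [hx]
        nlinarith
      · have h1 : (z g i : ℝ) ≤ b := by exact_mod_cast (not_le.1 h).le
        rw [hx]
        nlinarith
    have hzi : (0 : ℝ) < z g i := by exact_mod_cast one_le_z g i
    have hx4z : x ^ (-(1 / 4) : ℝ) ≤ (z g i : ℝ) ^ (-(1 / 4) : ℝ) :=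
      Real.rpow_le_rpow_of_nonpos hzi hxz (by norm_num)
    refine (hmain (min nx (min (ps g i) (ewp g Rr q))) (min_le_left _ _)
      fun p h1 h2 h3 h4 => ⟨?_, ?_⟩).trans ?_
    · have h5 : N g - p < ps g i := lt_of_lt_of_le h1 ((min_le_right _ _).trans (min_le_left _ _))
      rcases Nat.lt_or_ge j (sg g p) with h6 | h6
      · exact hmin _ h6 (hlt p i h2 h4 h5)
      · exact hNA (sg g p) (sg_spec hJ hX h2 h4).1 h6
    · exact (hrho (sg g p) (sg_spec hJ hX h2 h4).2.1 (hcut p (lt_of_lt_of_le h1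
        ((min_le_right _ _).trans (min_le_right _ _))) h2 h4)).1
    · refine mul_le_mul_of_nonneg_left ?_ hB0
      rw [hGm]
      have h5 := hG0 (ps g j) (min nx (min (ps g i) (ewp g Rr q)))
      have h6 := mul_le_mul_of_nonneg_right hx4z h5
      have h7 := single_le_sum hS0 (mem_Icc.2 ⟨hi1, hi2⟩)
      have h8 := hG0 (ps g j) (min nx (ewp g Rr q))
      linarith

end Vale.P028.SK
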